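import Vale.Agent.P346.Local

namespace Vale.Agent.P346

open Finset

theorem binom1 (N : ℕ) (x : ℝ) : ∑ q ∈ range (N + 1), x ^ q * (N.choose q : ℝ) = (1 + x) ^ N := by
  rw [add_comm 1 x, add_pow]; simp

theorem binom2 (N : ℕ) (x : ℝ) :
    x * ∑ q ∈ range (N + 1), x ^ q * (N.choose (q + 1) : ℝ) ≤ (1 + x) ^ N := by
  have h := binom1 N x
  rw [sum_range_succ'] at h
  rw [sum_range_succ, Nat.choose_eq_zero_of_lt (Nat.lt_succ_self N), mul_add, mul_sum]
  simp only [pow_zero, Nat.choose_zero_right, Nat.cast_one, mul_one] at h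
  have : ∑ q ∈ range N, x * (x ^ q * (N.choose (q + 1) : ℝ))
      = ∑ q ∈ range N, x ^ (q + 1) * (N.choose (q + 1) : ℝ) :=
    sum_congr rfl fun q _ => by ring
  rw [this]; simp; linarith

theorem choose_add_two (N q : ℕ) (hq : q ≤ N) :
    ((N + 2).choose q : ℝ) * (((N : ℝ) - q + 1) * ((N : ℝ) - q + 2))
      = N.choose q * ((N + 1) * (N + 2)) := by
  have h1 := Nat.choose_mul_succ_eq N q
  have h2 := Nat.choose_mul_succ_eq (N + 1) q
  have h1' : (N.choose q : ℝ) * (N + 1) = (N + 1).choose q * ((N : ℝ) - q + 1) := by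
    have : ((N + 1 - q : ℕ) : ℝ) = (N : ℝ) - q + 1 := by
      rw [Nat.cast_sub (by omega)]; push_cast; ring
    rw [← this]; exact_mod_cast h1
  have h2' : ((N + 1).choose q : ℝ) * (N + 2) = (N + 2).choose q * ((N : ℝ) - q + 2) := by
    have : ((N + 1 + 1 - q : ℕ) : ℝ) = (N : ℝ) - q + 2 := by
      rw [Nat.cast_sub (by omega)]; push_cast; ring
    rw [← this]; exact_mod_cast h2
  calc ((N + 2).choose q : ℝ) * (((N : ℝ) - q + 1) * ((N : ℝ) - q + 2))
      = ((N + 2).choose q * ((N : ℝ) - q + 2)) * ((N : ℝ) - q + 1) := by ring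
    _ = ((N + 1).choose q * ((N : ℝ) - q + 1)) * (N + 2) := by rw [← h2']; ring
    _ = _ := by rw [← h1']; ring

theorem binom4 (N : ℕ) (hN : 0 < N) (x : ℝ) (hx : 0 ≤ x) :
    x ^ N ≤ 2 * (1 + x) ^ 2 / N ^ 2 * (1 + x) ^ N := by
  have h := binom1 (N + 2) x
  have h1 : x ^ N * ((N + 2).choose N : ℝ) ≤ (1 + x) ^ (N + 2) := by
    rw [← h]
    exact single_le_sum (f := fun q => x ^ q * ((N + 2).choose q : ℝ))
      (fun q _ => by positivity) (mem_range.2 (by omega))
  have h2 := choose_add_two N N le_rfl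
  simp only [sub_self, zero_add, Nat.choose_self, Nat.cast_one, one_mul] at h2
  have hN' : (0 : ℝ) < N := by exact_mod_cast hN
  rw [div_mul_eq_mul_div, le_div_iff₀ (by positivity)]
  have h3 : (N : ℝ) ^ 2 ≤ ((N + 2).choose N : ℝ) * 2 := by rw [h2]; nlinarith
  calc x ^ N * (N : ℝ) ^ 2 ≤ x ^ N * (((N + 2).choose N : ℝ) * 2) := by gcongr
    _ = 2 * (x ^ N * ((N + 2).choose N : ℝ)) := by ring
    _ ≤ 2 * (1 + x) ^ (N + 2) := by gcongr
    _ = _ := by ring

theorem binom3 (N : ℕ) (hN : 0 < N) (x : ℝ) (hx : 0 ≤ x) :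
    ∑ q ∈ range (N + 1), x ^ q * (if q < N then (N.choose q : ℝ) * ((q + 1) / (N - q)) else 0)
      ≤ (x + 3 * (1 + x) ^ 2 / N) * (1 + x) ^ N := by
  have hN' : (0 : ℝ) < N := by exact_mod_cast hN
  have hterm : ∀ q ∈ range (N + 1),
      x ^ q * (if q < N then (N.choose q : ℝ) * ((q + 1) / (N - q)) else 0)
        ≤ x ^ q * ((N.choose q : ℝ) * (q / (N - q + 1))) + 3 / N * (x ^ q * ((N + 2).choose q : ℝ)) := by
    intro q hq
    have hq' : q ≤ N := by have := mem_range.1 hq; omega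
    have hq'' : (q : ℝ) ≤ N := by exact_mod_cast hq'
    have hi0 : (0 : ℝ) ≤ N - q := by linarith
    split_ifs with h
    swap
    · rw [mul_zero]; positivity
    have hi : (1 : ℝ) ≤ N - q := by
      have : ((q + 1 : ℕ) : ℝ) ≤ N := by exact_mod_cast h
      push_cast at this; linarith
    have h2 := choose_add_two N q hq'
    set i : ℝ := N - q with hi_def
    have hqe : (q : ℝ) = N - i := by rw [hi_def]; ring
    have hC : ((N + 2).choose q : ℝ) = N.choose q * ((N + 1) * (N + 2)) / ((i + 1) * (i + 2)) := by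
      rw [eq_div_iff (by positivity), h2]
    rw [hC]
    have key : ((q : ℝ) + 1) / i ≤ q / (i + 1) + 3 / N * ((N + 1) * (N + 2) / ((i + 1) * (i + 2))) := by
      have e1 : ((q : ℝ) + 1) / i = q / (i + 1) + (N + 1) / (i * (i + 1)) := by
        rw [hqe]; field_simp; ring
      rw [e1]
      gcongr
      have e2 : 3 / (N : ℝ) * ((N + 1) * (N + 2) / ((i + 1) * (i + 2)))
          = (N + 1) * (3 * (N + 2) / (N * ((i + 1) * (i + 2)))) := by field_simp
      rw [e2, div_eq_mul_one_div]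
      refine mul_le_mul_of_nonneg_left ?_ (by positivity)
      rw [div_le_div_iff₀ (by positivity) (by positivity)]
      have : (N : ℝ) * (i + 2) ≤ 3 * (N + 2) * i := by nlinarith
      nlinarith
    have hxq : 0 ≤ x ^ q * (N.choose q : ℝ) := by positivity
    calc x ^ q * ((N.choose q : ℝ) * ((q + 1) / i)) = (x ^ q * N.choose q) * ((q + 1) / i) := by ring
      _ ≤ (x ^ q * N.choose q) *
          (q / (i + 1) + 3 / N * ((N + 1) * (N + 2) / ((i + 1) * (i + 2)))) := by gcongr
      _ = _ := by ring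
  refine le_trans (sum_le_sum hterm) ?_
  rw [sum_add_distrib, ← mul_sum]
  have hA : ∑ q ∈ range (N + 1), x ^ q * ((N.choose q : ℝ) * (q / (N - q + 1)))
      ≤ x * (1 + x) ^ N := by
    rw [sum_range_succ', ← binom1 N x, sum_range_succ, mul_add, mul_sum]
    simp only [Nat.cast_zero, zero_div, mul_zero, add_zero]
    have : ∀ q ∈ range N, x ^ (q + 1) * ((N.choose (q + 1) : ℝ) *
        (((q + 1 : ℕ) : ℝ) / (N - ((q + 1 : ℕ) : ℝ) + 1))) = x * (x ^ q * (N.choose q : ℝ)) := by
      intro q hq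
      have hq' := mem_range.1 hq
      have h1 := Nat.choose_succ_right_eq N q
      have h2 : (N.choose (q + 1) : ℝ) * (q + 1) = N.choose q * ((N : ℝ) - q) := by
        rw [← Nat.cast_sub hq'.le]; exact_mod_cast h1
      have h3 : (0 : ℝ) < N - q := by
        have : (q : ℝ) < N := by exact_mod_cast hq'
        linarith
      push_cast
      have e : (N : ℝ) - (q + 1) + 1 = N - q := by ring
      rw [e, ← mul_div_assoc, h2, mul_div_assoc, div_self h3.ne']; ring
    rw [sum_congr rfl this]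
    have : 0 ≤ x * (x ^ N * (N.choose N : ℝ)) := by positivity
    linarith
  have hB : ∑ q ∈ range (N + 1), x ^ q * ((N + 2).choose q : ℝ) ≤ (1 + x) ^ (N + 2) := by
    rw [← binom1 (N + 2) x]
    exact sum_le_sum_of_subset_of_nonneg (range_subset_range.2 (by omega))
      fun _ _ _ => by positivity
  calc _ ≤ x * (1 + x) ^ N + 3 / N * (1 + x) ^ (N + 2) := by gcongr
    _ = _ := by ring

theorem vnext_lower (N t0 q v : ℕ) (hq : q < N) : v * (q + 1) ≤ vnext N t0 q v * (N - q) := by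
  obtain ⟨m, rfl⟩ : ∃ m, N = q + m := ⟨N - q, by omega⟩
  have hm : 0 < m := by omega
  have e : q + m - q = m := by omega
  simp only [vnext, hq, if_true, qpart, e]
  have h1 := Nat.div_add_mod v m
  have h2 := Nat.mod_lt v hm
  set r := v / m
  set rem := v % m
  have h3 := Nat.lt_div_mul_add (a := rem * (q + 1)) hm
  have h4 : rem * (q + 1) ≤ (min q (rem * (q + 1) / m + 1 + t0) + 1) * m := by
    rcases le_total q (rem * (q + 1) / m + 1 + t0) with h | h
    · rw [min_eq_left h]; nlinarith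
    · rw [min_eq_right h]; nlinarith
  calc v * (q + 1) = r * (q + 1) * m + rem * (q + 1) := by rw [← h1]; ring
    _ ≤ r * (q + 1) * m + (min q (rem * (q + 1) / m + 1 + t0) + 1) * m := by omega
    _ = _ := by ring

theorem vnext_upper (N t0 q v : ℕ) (hq : q < N) :
    (vnext N t0 q v : ℝ) ≤ v * (((q : ℝ) + 1) / (N - q)) + (t0 + 2) := by
  obtain ⟨m, rfl⟩ : ∃ m, N = q + m := ⟨N - q, by omega⟩
  have hm : 0 < m := by omega
  have e : q + m - q = m := by omega
  have h1 := Nat.div_add_mod v m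
  have h5 : vnext (q + m) t0 q v * m ≤ v * (q + 1) + (t0 + 2) * m := by
    simp only [vnext, hq, if_true, qpart, e]
    set r := v / m
    set rem := v % m
    have h3 := Nat.div_mul_le_self (rem * (q + 1)) m
    have h4 := min_le_right q (rem * (q + 1) / m + 1 + t0)
    calc (r * (q + 1) + min q (rem * (q + 1) / m + 1 + t0) + 1) * m
        ≤ (r * (q + 1) + (rem * (q + 1) / m + 1 + t0) + 1) * m := by gcongr
      _ = r * (q + 1) * m + rem * (q + 1) / m * m + (t0 + 2) * m := by ring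
      _ ≤ r * (q + 1) * m + rem * (q + 1) + (t0 + 2) * m := by omega
      _ = _ := by rw [← h1]; ring
  have hm' : (0 : ℝ) < m := by exact_mod_cast hm
  have e2 : ((q + m : ℕ) : ℝ) - q = m := by push_cast; ring
  rw [e2]
  have h6 : (vnext (q + m) t0 q v : ℝ) * m ≤ v * (q + 1) + (t0 + 2) * m := by exact_mod_cast h5
  rw [← mul_div_assoc, div_add' _ _ _ hm'.ne', le_div_iff₀ hm']
  exact h6

end Vale.Agent.P346
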