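import Vale.Agent.P346.GT

namespace Vale.Agent.P346

open Finset MvPolynomial

universe u

variable {K : Type u} [Field K] {σ : Type}

theorem homog_multiset_prod {ι : Type*} (m : Multiset ι) (val : ι → MvPolynomial σ K)
    (deg : ι → ℕ) (h : ∀ i, (val i).IsHomogeneous (deg i)) :
    (m.map val).prod.IsHomogeneous (m.map deg).sum := by
  induction m using Multiset.induction_on with
  | empty => simpa using isHomogeneous_one σ K
  | cons a m ih => simpa using (h a).mul ih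

theorem eq_sup_of_pairwise {ι : Type*} (s : Finset ι) (deg : ι → ℕ)
    (h : ∀ i ∈ s, ∀ j ∈ s, deg i = deg j) (j : ι) (hj : j ∈ s) : deg j = s.sup deg :=
  le_antisymm (le_sup hj) (Finset.sup_le fun i hi => (h i hi j hj).le)

theorem homog_sum_gate {ι : Type*} (s : Finset ι) (co : ι → K) (val : ι → MvPolynomial σ K)
    (deg : ι → ℕ) (h : ∀ i, (val i).IsHomogeneous (deg i))
    (h' : ∀ i ∈ s, ∀ j ∈ s, deg i = deg j) :
    (∑ j ∈ s, C (co j) * val j).IsHomogeneous (s.sup deg) := by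
  refine IsHomogeneous.sum _ _ _ fun j hj => ?_
  rw [← eq_sup_of_pairwise s deg h' j hj]
  exact (h j).C_mul _

namespace Circuit

variable (Γ : Circuit K σ)

theorem homog0 (g : Fin Γ.n0) : (Γ.val0 g).IsHomogeneous (Γ.deg0 g) := by
  unfold val0 deg0
  rcases Γ.leaf g with x | a
  · exact isHomogeneous_X K x
  · exact isHomogeneous_C σ a

omit [Field K] in
theorem deg1_le (g : Fin Γ.n1) : Γ.deg1 g ≤ 1 := by
  refine Finset.sup_le fun j _ => ?_
  unfold deg0
  rcases Γ.leaf j with x | a <;> simp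

variable (hΓ : Γ.Homogeneous)
include hΓ

theorem homog1 (g : Fin Γ.n1) : (Γ.val1 g).IsHomogeneous (Γ.deg1 g) :=
  homog_sum_gate _ _ _ _ Γ.homog0 (hΓ.1 g)

theorem homog2 (g : Fin Γ.n2) : (Γ.val2 g).IsHomogeneous (Γ.deg2 g) :=
  homog_multiset_prod _ _ _ (Γ.homog1 hΓ)

theorem homog3 (g : Fin Γ.n3) : (Γ.val3 g).IsHomogeneous (Γ.deg3 g) :=
  homog_sum_gate _ _ _ _ (Γ.homog2 hΓ) (hΓ.2.1 g)

theorem homog4 (g : Fin Γ.n4) : (Γ.val4 g).IsHomogeneous (Γ.deg4 g) :=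
  homog_multiset_prod _ _ _ (Γ.homog3 hΓ)

theorem homog5 : Γ.output.IsHomogeneous (Γ.in5.sup Γ.deg4) :=
  homog_sum_gate _ _ _ _ (Γ.homog4 hΓ) hΓ.2.2

end Circuit

theorem GT_mul (Good : ℕ → Prop) (t : ℕ) (T H : MvPolynomial σ K) (D : ℕ) (hH : H.IsHomogeneous D)
    (hT : GT Good t T) : GT Good t (T * H) := by
  induction t generalizing T with
  | zero =>
    obtain ⟨D', h⟩ := hT
    exact ⟨D' + D, h.mul hH⟩
  | succ t ih =>
    obtain ⟨G, T', D', h1, h2, h3, rfl⟩ := hT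
    exact ⟨G, T' * H, D', h1, h2, ih T' h3, mul_assoc _ _ _⟩

theorem split_multiset {ι : Type*} (deg : ι → ℕ) (δ : ℕ) (m : Multiset ι) :
    (∀ i ∈ m, deg i ≤ δ) → ∀ lo, 1 ≤ lo → lo ≤ (m.map deg).sum →
    ∃ m₁ m₂, m = m₁ + m₂ ∧ lo ≤ (m₁.map deg).sum ∧ (m₁.map deg).sum + 1 ≤ lo + δ := by
  induction m using Multiset.induction_on with
  | empty => intro _ lo h1 h2; simp at h2; omega
  | cons a m ih =>
    intro hδ lo h1 h2
    have ha := hδ a (Multiset.mem_cons_self _ _)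
    by_cases h : lo ≤ deg a
    · exact ⟨{a}, m, by simp, by simpa using h, by simp; omega⟩
    · simp only [Multiset.map_cons, Multiset.sum_cons] at h2
      obtain ⟨m₁, m₂, rfl, h3, h4⟩ := ih (fun i hi => hδ i (Multiset.mem_cons_of_mem hi))
        (lo - deg a) (by omega) (by omega)
      refine ⟨a ::ₘ m₁, m₂, by simp, ?_, ?_⟩ <;>
        simp only [Multiset.map_cons, Multiset.sum_cons] <;> omega

theorem GT_merge {ι : Type*} (Good : ℕ → Prop) (val : ι → MvPolynomial σ K) (deg : ι → ℕ)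
    (h : ∀ i, (val i).IsHomogeneous (deg i)) (δ lo b : ℕ) (hlo : 1 ≤ lo) (hb : lo ≤ b)
    (hb' : lo + δ ≤ b + 1) (hG : ∀ D, lo ≤ D → D ≤ b → Good D) (t : ℕ) :
    ∀ m : Multiset ι, (∀ i ∈ m, deg i ≤ δ) → t * b ≤ (m.map deg).sum →
      GT Good t (m.map val).prod := by
  induction t with
  | zero => intro m _ _; exact ⟨_, homog_multiset_prod m val deg h⟩
  | succ t ih =>
    intro m hδ hm
    rw [Nat.succ_mul] at hm
    obtain ⟨m₁, m₂, rfl, h3, h4⟩ := split_multiset deg δ m hδ lo hlo (by omega)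
    refine ⟨(m₁.map val).prod, (m₂.map val).prod, _, hG _ h3 (by omega),
      homog_multiset_prod m₁ val deg h, ih m₂ (fun i hi => hδ i (by simp [hi])) ?_, by simp⟩
    simp only [Multiset.map_add, Multiset.sum_add] at hm
    omega

theorem decomp (Γ : Circuit K σ) (hΓ : Γ.Homogeneous) (n ρ : ℕ) (hρ : 0 < ρ)
    (hn : 8 * ρ ^ 2 ≤ n) (hdeg : Γ.in5.sup Γ.deg4 = n) (Good : ℕ → Prop) (h1 : Good 1)
    (h2 : ∀ D, 2 * ρ ≤ D → D ≤ 4 * ρ → Good D) (m : MvPolynomial σ K → ℝ)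
    (hm : ∀ (k : ℕ) (s : Finset (Fin k)) (f : Fin k → MvPolynomial σ K),
      m (∑ i ∈ s, f i) ≤ ∑ i ∈ s, m (f i))
    (B : ℝ) (hB0 : 0 ≤ B) (hB : ∀ T, GT Good (2 * ρ) T → m T ≤ B) :
    m Γ.output ≤ (Γ.size : ℝ) ^ 2 * B := by
  have hs1 : 1 ≤ Γ.size := by unfold Circuit.size; omega
  have hs1' : (1 : ℝ) ≤ Γ.size := by exact_mod_cast hs1
  have key : ∀ j ∈ Γ.in5, m (C (Γ.co5 j) * Γ.val4 j) ≤ Γ.size * B := by
    intro j hj
    have hd : Γ.deg4 j = n := by rw [← hdeg]; exact eq_sup_of_pairwise _ _ hΓ.2.2 j hj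
    by_cases hall : ∀ g ∈ Γ.in4 j, Γ.deg3 g ≤ 2 * ρ
    · have h3 := GT_merge Good Γ.val3 Γ.deg3 (Γ.homog3 hΓ) (2 * ρ) (2 * ρ) (4 * ρ) (by omega)
        (by omega) (by omega) h2 (2 * ρ) (Γ.in4 j) hall (by
          have : Γ.deg4 j = ((Γ.in4 j).map Γ.deg3).sum := rfl
          rw [← this, hd]; nlinarith)
      have h4 := hB _ (GT_mul Good _ _ _ 0 (isHomogeneous_C σ (Γ.co5 j)) h3)
      rw [mul_comm]
      exact le_trans h4 (le_mul_of_one_le_left hB0 hs1')
    · push Not at hall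
      obtain ⟨g, hg, hg'⟩ := hall
      obtain ⟨rest, hrest⟩ := Multiset.exists_cons_of_mem hg
      have e : C (Γ.co5 j) * Γ.val4 j = ∑ k ∈ Γ.in3 g, Γ.val2 k *
          (C (Γ.co3 g k) * (C (Γ.co5 j) * (rest.map Γ.val3).prod)) := by
        unfold Circuit.val4
        rw [hrest, Multiset.map_cons, Multiset.prod_cons, Circuit.val3, sum_mul, mul_sum]
        exact sum_congr rfl fun k _ => by ring
      rw [e]
      refine le_trans (hm _ _ _) (le_trans (sum_le_card_nsmul _ _ B fun k hk => ?_) ?_)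
      · refine hB _ (GT_mul Good _ _ _ _
          (((homog_multiset_prod rest _ _ (Γ.homog3 hΓ)).C_mul _).C_mul _) ?_)
        refine GT_merge Good Γ.val1 Γ.deg1 (Γ.homog1 hΓ) 1 1 1 le_rfl le_rfl le_rfl
          (fun D h3 h4 => by rw [show D = 1 by omega]; exact h1) (2 * ρ) (Γ.in2 k)
          (fun i _ => Γ.deg1_le i) ?_
        have h5 : Γ.deg2 k = Γ.deg3 g := eq_sup_of_pairwise _ _ (hΓ.2.1 g) k hk
        have : Γ.deg2 k = ((Γ.in2 k).map Γ.deg1).sum := rfl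
        omega
      · rw [nsmul_eq_mul]
        refine mul_le_mul_of_nonneg_right ?_ hB0
        have := card_le_univ (Γ.in3 g)
        rw [Fintype.card_fin] at this
        exact_mod_cast le_trans this (by unfold Circuit.size; omega)
  refine le_trans (hm _ _ _) (le_trans (sum_le_card_nsmul _ _ _ key) ?_)
  rw [nsmul_eq_mul, sq, mul_assoc]
  refine mul_le_mul_of_nonneg_right ?_ (by positivity)
  have := card_le_univ Γ.in5
  rw [Fintype.card_fin] at this
  exact_mod_cast le_trans this (by unfold Circuit.size; omega)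

end Vale.Agent.P346
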