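import Vale.Agent.P346.Lower
import Vale.Agent.P346.Decomp

namespace Vale.Agent.P346

open Finset MvPolynomial

universe u

theorem homog_list_prod {σ K W : Type*} [Field K] [Fintype W] [DecidableEq W]
    (l : List (Matrix W W (MvPolynomial σ K))) (h : ∀ M ∈ l, ∀ s t, (M s t).IsHomogeneous 1) :
    ∀ s t, (l.prod s t).IsHomogeneous l.length := by
  induction l with
  | nil =>
    intro s t
    simp only [List.prod_nil, List.length_nil, Matrix.one_apply]
    split_ifs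
    · exact isHomogeneous_one σ K
    · exact isHomogeneous_zero σ K 0
  | cons M l ih =>
    intro s t
    rw [List.prod_cons, Matrix.mul_apply, List.length_cons, add_comm]
    exact IsHomogeneous.sum _ _ _ fun k _ =>
      (h M (by simp) s k).mul (ih (fun M' hM' => h M' (by simp [hM'])) k t)

theorem IMM_homog (K : Type u) [Field K] (w d : ℕ) [NeZero w] : (IMM K w d).IsHomogeneous d := by
  have := homog_list_prod (List.ofFn fun i : Fin d => (Matrix.of fun a b : Fin w =>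
    (X (i, a, b) : MvPolynomial (Fin d × Fin w × Fin w) K))) (by
      intro M hM s t
      obtain ⟨i, rfl⟩ := List.mem_ofFn.1 hM
      exact isHomogeneous_X K _) 0 0
  rwa [List.length_ofFn] at this

def eps (u : ℕ) (E : ℤ) : ℤ := if 0 ≤ E then -(u + 1) else u

def Es (u : ℕ) : ℕ → ℤ
  | 0 => 0
  | j + 1 => Es u j + eps u (Es u j)

theorem Es_bd (u j : ℕ) : -((u : ℤ) + 1) ≤ Es u j ∧ Es u j ≤ u := by
  induction j with
  | zero => simp only [Es]; omega
  | succ j ih => simp only [Es, eps]; split_ifs <;> omega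

theorem sum_eps (u n : ℕ) : ∑ i : Fin n, eps u (Es u i.val) = Es u n := by
  induction n with
  | zero => simp [Es]
  | succ n ih => rw [Fin.sum_univ_castSucc]; simp [ih, Es]

theorem lev_eps (u : ℕ) (c Λ : ℝ) (hc : 1 ≤ c)
    (h1 : ∀ e : ℤ, e = u ∨ e = -(u + 1) → (1 + c ^ (-2 * e)) ^ 2 ≤ Λ * c ^ (-2 * e) ∧
      c ^ (-2 * e) ≤ Λ) (m : ℕ) : ∀ j, Lev (c ^ (4 * u + 2)) Λ
      (List.ofFn fun i : Fin m => c ^ (-2 * eps u (Es u (j + i.val)))) (c ^ (2 * u - 2 * Es u j)) := by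
  have hc0 : 0 < c := by linarith
  have hb : ∀ j, 1 ≤ c ^ (2 * u - 2 * Es u j) ∧ c ^ (2 * u - 2 * Es u j) ≤ c ^ (4 * u + 2) := by
    intro j
    have := Es_bd u j
    refine ⟨one_le_zpow₀ hc (by omega), ?_⟩
    rw [← zpow_natCast]
    exact zpow_le_zpow_right₀ hc (by push_cast; omega)
  induction m with
  | zero => intro j; exact hb j
  | succ m ih =>
    intro j
    rw [List.ofFn_succ]
    refine ⟨hb j, ⟨by positivity, h1 _ ?_⟩, ?_⟩
    · unfold eps; split_ifs <;> simp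
    · have := ih (j + 1)
      have e1 : c ^ (2 * u - 2 * Es u j) * c ^ (-2 * eps u (Es u (j + (0 : Fin (m + 1)).val)))
          = c ^ (2 * u - 2 * Es u (j + 1)) := by
        rw [← zpow_add₀ hc0.ne']
        congr 1
        simp only [Es, Fin.val_zero, add_zero]; ring
      rw [e1]
      have e2 : (fun i : Fin m => c ^ (-2 * eps u (Es u (j + i.succ.val))))
          = fun i : Fin m => c ^ (-2 * eps u (Es u (j + 1 + i.val))) := by
        funext i
        rw [Fin.val_succ, show j + (i.val + 1) = j + 1 + i.val by ring]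
      rw [e2]; exact this

theorem good_one (ρ : ℕ) (a : ℕ) :
    (ρ : ℤ) ≤ |((3 * ρ : ℕ) : ℤ) * ((1 : ℕ) : ℤ) - (2 * ((3 * ρ : ℕ) : ℤ) + 1) * a| := by
  push_cast
  rcases Nat.eq_zero_or_pos a with rfl | ha
  · simp only [Nat.cast_zero, mul_zero, sub_zero]
    refine le_trans ?_ (le_abs_self _); omega
  · refine le_trans ?_ (neg_le_abs _)
    have : (1 : ℤ) ≤ a := by exact_mod_cast ha
    nlinarith

theorem good_mid (ρ D : ℕ) (h1 : 2 * ρ ≤ D) (h2 : D ≤ 4 * ρ) (a : ℕ) :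
    (ρ : ℤ) ≤ |((3 * ρ : ℕ) : ℤ) * (D : ℤ) - (2 * ((3 * ρ : ℕ) : ℤ) + 1) * a| := by
  push_cast
  have hρ : (0 : ℤ) ≤ ρ := by positivity
  obtain ⟨e, rfl | rfl⟩ := Nat.even_or_odd' D
  · have h3 : (ρ : ℤ) ≤ e := by omega
    have h4 : (e : ℤ) ≤ 2 * ρ := by omega
    push_cast
    rcases le_or_gt (e : ℤ) a with h | h
    · refine le_trans ?_ (neg_le_abs _); nlinarith
    · refine le_trans ?_ (le_abs_self _)
      have : (a : ℤ) + 1 ≤ e := h
      nlinarith
  · have h4 : (e : ℤ) ≤ 2 * ρ := by omega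
    have h3 : (0 : ℤ) ≤ e := by positivity
    push_cast
    rcases le_or_gt (a : ℤ) e with h | h
    · refine le_trans ?_ (le_abs_self _); nlinarith
    · refine le_trans ?_ (neg_le_abs _)
      have : (e : ℤ) + 1 ≤ a := h
      nlinarith

theorem core (K : Type u) [Field K] (n : ℕ) [NeZero n] (ρ N t0 T k : ℕ) (c Λ E A : ℝ)
    (hρ : 0 < ρ) (hn : 8 * ρ ^ 2 ≤ n) (hN : 0 < N) (ht0 : 0 < t0) (hc : 1 ≤ c)
    (hc2 : 2 ≤ c ^ (2 * (3 * ρ) + 1)) (hΛ : 0 < Λ)
    (h1 : ∀ e : ℤ, e = (3 * ρ : ℕ) ∨ e = -((3 * ρ : ℕ) + 1) →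
      (1 + c ^ (-2 * e)) ^ 2 ≤ Λ * c ^ (-2 * e) ∧ c ^ (-2 * e) ≤ Λ)
    (hE : (1 + 3 * Λ / N) ^ (2 * T) ≤ E)
    (hA : (N : ℝ) ^ 2 / t0 ^ 2 + n * (2 * Λ ^ 2 / N ^ 2)
      + c ^ (4 * (3 * ρ) + 2) * E * ((1 + 1 / (3 * Λ / N)) * (t0 + 2) ^ 2) / n ≤ A)
    (hw : 4 * c ^ (4 * (3 * ρ) + 2) * E * (4 * T * A + 1) ≤ n) (hk : n ≤ k * T)
    (Γ : Circuit K (Fin n × Fin n × Fin n)) (hΓ : Γ.Homogeneous) (hout : Γ.output = IMM K n n) :
    1 ≤ (2 * n : ℝ) ^ k * ((Γ.size : ℝ) ^ 2 * (c ^ (3 * ρ) * (4 * (4 / c ^ ρ) ^ (2 * ρ)))) := by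
  have hc0 : 0 < c := by linarith
  let εL : Fin n → ℤ := fun i => eps (3 * ρ) (Es (3 * ρ) i.val)
  have hlev := lev_eps (3 * ρ) c Λ hc h1 n 0
  simp only [zero_add] at hlev
  obtain ⟨r, hr, hZ⟩ := segs_wit (K := K) N n t0 T hN ht0 _ Λ E A hΛ hE hA hw k _
    (by simpa using hk) _ hlev
  obtain ⟨R, hR, hM⟩ := exists_rep (K := K) (algebraMap K (GenL K n N n)) εL (genL K n N n)
  have hlow := mu_lower (genL K n N n) εL c hc0 r (fun p => generic K n N n _ _
    (hr _ (by simp) (fun q hq => by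
      obtain ⟨i, rfl⟩ := List.mem_ofFn.1 hq
      exact Nat.lt_succ_iff.1 (p i).isLt))) (R (IMM K n n)) hM
  set Ess := (univ.image fun p : Fin n → Fin (N + 1) => ∑ i, εL i * ((p i).val : ℤ))
  have hZe := Z_eq (N := N) c hc0 εL
  set Z := ∑ J : Fin n → Finset (Fin N), c ^ (-2 * enr εL J) with hZdef
  have hZpos : 0 < Z := sum_pos (fun _ _ => by positivity) univ_nonempty
  have hn0 : (0 : ℝ) < n := by exact_mod_cast Nat.pos_of_ne_zero (NeZero.ne n)
  have hmain : Z ≤ (2 * n : ℝ) ^ k * mu (enr εL) Ess c (∑ i, εL i) (R (IMM K n n)) := by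
    rw [hZe]
    exact le_trans hZ (mul_le_mul_of_nonneg_left hlow (by positivity))
  have hne : IMM K n n ≠ 0 := by
    intro h0
    rw [h0, map_zero, mu_zero, mul_zero] at hmain
    linarith
  have hdeg : Γ.in5.sup Γ.deg4 = n := by
    have := Γ.homog5 hΓ
    rw [hout] at this
    exact this.inj_right (IMM_homog K n n) hne
  have hup := decomp Γ hΓ n ρ hρ hn hdeg
    (fun D => ∀ a : ℕ, (ρ : ℤ) ≤ |((3 * ρ : ℕ) : ℤ) * (D : ℤ) - (2 * ((3 * ρ : ℕ) : ℤ) + 1) * a|)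
    (good_one ρ) (good_mid ρ) (fun P => mu (enr εL) Ess c (∑ i, εL i) (R P))
    (fun k s f => by simp only [map_sum]; exact mu_sum _ _ _ _ hc0 _ _)
    (c ^ (3 * ρ) * (Z * (4 * (4 / c ^ ρ) ^ (2 * ρ)))) (by positivity)
    (fun P hP => by
      have := mu_GT (enr εL) Ess c (∑ i, εL i) (3 * ρ) (fun x : Fin n × Fin n × Fin n => εL x.1)
        R hc hc2 (fun x => by simp only [εL, eps]; split_ifs <;> simp) hR ρ (2 * ρ) P hP 1 1 0 0
        (isWeightedHomogeneous_one K _) (isWeightedHomogeneous_one K _)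
      simp only [one_mul, add_zero, sub_zero] at this
      refine le_trans this (mul_le_mul_of_nonneg_right ?_ (by positivity))
      rw [← zpow_natCast]
      refine zpow_le_zpow_right₀ hc ?_
      rw [sum_eps]
      exact (Es_bd _ _).2)
  rw [hout] at hup
  refine le_of_mul_le_mul_left ?_ hZpos
  calc Z * 1 = Z := mul_one _
    _ ≤ (2 * n : ℝ) ^ k * ((Γ.size : ℝ) ^ 2 *
        (c ^ (3 * ρ) * (Z * (4 * (4 / c ^ ρ) ^ (2 * ρ))))) :=
      le_trans hmain (mul_le_mul_of_nonneg_left hup (by positivity))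
    _ = _ := by ring

end Vale.Agent.P346
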