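import Mathlib

/-!
Definitions for P346: iterated matrix multiplication and syntactically homogeneous
depth-five circuits with layers sum, product, sum, product, sum.
-/

namespace Vale.Agent.P346

open MvPolynomial

universe u

/-- `IMM K w d` is the `(1,1)` entry (index `0` in `Fin w`) of the product of `d` generic
`w × w` matrices; the variable `(i, a, b)` is the entry `(a, b)` of the `i`-th matrix. -/
noncomputable def IMM (K : Type u) [Field K] (w d : ℕ) [NeZero w] :
    MvPolynomial (Fin d × Fin w × Fin w) K :=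
  (List.ofFn fun i : Fin d =>
    (Matrix.of fun a b : Fin w => (X (i, a, b) : MvPolynomial (Fin d × Fin w × Fin w) K))).prod 0 0

/-- A layered depth-five circuit over `K` in the variables `σ`.
There are `n0` leaves (variables or constants), `n1` bottom sum gates reading leaves,
`n2` product gates reading bottom sum gates, `n3` middle sum gates reading those product gates,
`n4` top product gates reading middle sum gates, and one output sum gate reading top product
gates.  A sum gate has a finite set of inputs with coefficients in `K`; a product gate has a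
multiset of inputs. -/
structure Circuit (K : Type u) (σ : Type) where
  n0 : ℕ
  n1 : ℕ
  n2 : ℕ
  n3 : ℕ
  n4 : ℕ
  leaf : Fin n0 → σ ⊕ K
  in1 : Fin n1 → Finset (Fin n0)
  co1 : Fin n1 → Fin n0 → K
  in2 : Fin n2 → Multiset (Fin n1)
  in3 : Fin n3 → Finset (Fin n2)
  co3 : Fin n3 → Fin n2 → K
  in4 : Fin n4 → Multiset (Fin n3)
  in5 : Finset (Fin n4)
  co5 : Fin n4 → K

namespace Circuit

variable {K : Type u} [Field K] {σ : Type} (Γ : Circuit K σ)

/-- Number of vertices: leaves, the gates of the four lower layers, and the output gate. -/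
def size : ℕ := Γ.n0 + Γ.n1 + Γ.n2 + Γ.n3 + Γ.n4 + 1

/-- Polynomial computed at a leaf. -/
noncomputable def val0 (g : Fin Γ.n0) : MvPolynomial σ K := Sum.elim X C (Γ.leaf g)

/-- Polynomial computed at a bottom sum gate. -/
noncomputable def val1 (g : Fin Γ.n1) : MvPolynomial σ K :=
  ∑ j ∈ Γ.in1 g, C (Γ.co1 g j) * Γ.val0 j

/-- Polynomial computed at a lower product gate. -/
noncomputable def val2 (g : Fin Γ.n2) : MvPolynomial σ K := ((Γ.in2 g).map Γ.val1).prod

/-- Polynomial computed at a middle sum gate. -/
noncomputable def val3 (g : Fin Γ.n3) : MvPolynomial σ K :=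
  ∑ j ∈ Γ.in3 g, C (Γ.co3 g j) * Γ.val2 j

/-- Polynomial computed at a top product gate. -/
noncomputable def val4 (g : Fin Γ.n4) : MvPolynomial σ K := ((Γ.in4 g).map Γ.val3).prod

/-- Polynomial computed at the output gate. -/
noncomputable def output : MvPolynomial σ K := ∑ j ∈ Γ.in5, C (Γ.co5 j) * Γ.val4 j

/-- Formal degree of a leaf: `1` for a variable, `0` for a constant. -/
def deg0 (g : Fin Γ.n0) : ℕ := Sum.elim (fun _ => 1) (fun _ => 0) (Γ.leaf g)

/-- Formal degree of a bottom sum gate: the largest degree of an input (the common degree of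
the inputs in a homogeneous circuit; `0` if there is no input). -/
def deg1 (g : Fin Γ.n1) : ℕ := (Γ.in1 g).sup Γ.deg0

/-- Formal degree of a lower product gate: the sum of the input degrees with multiplicity. -/
def deg2 (g : Fin Γ.n2) : ℕ := ((Γ.in2 g).map Γ.deg1).sum

/-- Formal degree of a middle sum gate. -/
def deg3 (g : Fin Γ.n3) : ℕ := (Γ.in3 g).sup Γ.deg2

/-- Formal degree of a top product gate. -/
def deg4 (g : Fin Γ.n4) : ℕ := ((Γ.in4 g).map Γ.deg3).sum

/-- Syntactic homogeneity: all inputs of each sum gate have the same formal degree. -/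
def Homogeneous : Prop :=
  (∀ g, ∀ i ∈ Γ.in1 g, ∀ j ∈ Γ.in1 g, Γ.deg0 i = Γ.deg0 j) ∧
  (∀ g, ∀ i ∈ Γ.in3 g, ∀ j ∈ Γ.in3 g, Γ.deg2 i = Γ.deg2 j) ∧
  (∀ i ∈ Γ.in5, ∀ j ∈ Γ.in5, Γ.deg4 i = Γ.deg4 j)

end Circuit

/-- `s K n`: the minimum size of a syntactically homogeneous depth-five circuit over `K`
computing `IMM K n n` as a formal polynomial. -/
noncomputable def s (K : Type u) [Field K] (n : ℕ) [NeZero n] : ℕ :=
  sInf {m : ℕ | ∃ Γ : Circuit K (Fin n × Fin n × Fin n),
    Γ.Homogeneous ∧ Γ.output = IMM K n n ∧ Γ.size = m}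

end Vale.Agent.P346
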