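import Vale.Agent.P346.Wit
import Vale.Agent.P346.Binom

namespace Vale.Agent.P346

open Finset

/-- Weighted sum over patterns. -/
noncomputable def Ex (N : ℕ) : List ℝ → (List ℕ → ℝ) → ℝ
  | [], k => k []
  | x :: xs, k => ∑ q ∈ range (N + 1), x ^ q * Ex N xs (fun ps => k (q :: ps))

noncomputable def ZZ (N : ℕ) (xs : List ℝ) : ℝ := (xs.map fun x => (1 + x) ^ N).prod

theorem Ex_mono (N : ℕ) (xs : List ℝ) (hx : ∀ x ∈ xs, 0 ≤ x) (k k' : List ℕ → ℝ)
    (h : ∀ p : List ℕ, p.length = xs.length → (∀ q ∈ p, q ≤ N) → k p ≤ k' p) :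
    Ex N xs k ≤ Ex N xs k' := by
  induction xs generalizing k k' with
  | nil => exact h [] rfl (by simp)
  | cons x xs ih =>
    refine sum_le_sum fun q hq => ?_
    have hx0 : 0 ≤ x := hx x (by simp)
    refine mul_le_mul_of_nonneg_left (ih (fun y hy => hx y (by simp [hy])) _ _ fun p hp hN => ?_)
      (by positivity)
    refine h _ (by simp [hp]) fun q' hq' => ?_
    rcases List.mem_cons.1 hq' with rfl | hq'
    · have := mem_range.1 hq; omega
    · exact hN _ hq'

theorem Ex_lin (N : ℕ) (xs : List ℝ) (a b : ℝ) (k k' : List ℕ → ℝ) :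
    Ex N xs (fun p => a * k p + b * k' p) = a * Ex N xs k + b * Ex N xs k' := by
  induction xs generalizing k k' with
  | nil => rfl
  | cons x xs ih =>
    simp only [Ex, ih, mul_sum, ← sum_add_distrib]
    exact sum_congr rfl fun q _ => by ring

theorem Ex_smul (N : ℕ) (xs : List ℝ) (a : ℝ) (k : List ℕ → ℝ) :
    Ex N xs (fun p => a * k p) = a * Ex N xs k := by
  simpa using Ex_lin N xs a 0 k k

theorem Ex_aP (N : ℕ) (xs : List ℝ) : Ex N xs (fun p => aP N p) = ZZ N xs := by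
  induction xs with
  | nil => simp [Ex, ZZ, aP]
  | cons x xs ih =>
    have : ∀ q, Ex N xs (fun ps => (aP N (q :: ps) : ℝ)) = N.choose q * ZZ N xs := by
      intro q
      rw [← ih, ← Ex_smul]
      simp [aP]
    simp only [Ex, this, ZZ, List.map_cons, List.prod_cons, ← binom1, sum_mul, mul_assoc]

theorem Ex_append (N : ℕ) (xs ys : List ℝ) (k k' : List ℕ → ℝ) :
    Ex N (xs ++ ys) (fun p => k (p.take xs.length) * k' (p.drop xs.length))
      = Ex N xs k * Ex N ys k' := by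
  induction xs generalizing k with
  | nil => simpa [Ex] using Ex_smul N ys (k []) k'
  | cons x xs ih =>
    simp only [List.cons_append, Ex, List.length_cons, List.take_succ_cons, List.drop_succ_cons,
      sum_mul]
    exact sum_congr rfl fun q _ => by rw [ih (fun ps => k (q :: ps)), mul_assoc]

theorem ZZ_nonneg (N : ℕ) (xs : List ℝ) (hx : ∀ x ∈ xs, 0 ≤ x) : 0 ≤ ZZ N xs := by
  refine List.prod_nonneg fun y hy => ?_
  obtain ⟨x, hx', rfl⟩ := List.mem_map.1 hy
  have := hx x hx'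
  positivity

theorem ex_step (N w t0 : ℕ) (hN : 0 < N) (x : ℝ) (hx : 0 < x) (xs : List ℝ)
    (hxs : ∀ y ∈ xs, 0 ≤ y) (α γ η : ℝ) (hα : 0 ≤ α) (hγ0 : 0 ≤ γ) (hγ : 1 ≤ γ * w) (hη : 0 < η)
    (ih : ∀ v', v' ≤ w → Ex N xs (fun p => kb N w t0 p v') ≤ (α + γ * v' ^ 2) * ZZ N xs)
    (v : ℕ) (hv : v ≤ w) :
    Ex N (x :: xs) (fun p => kb N w t0 p v) ≤
      ((N : ℝ) ^ 2 / t0 ^ 2 + w * (2 * (1 + x) ^ 2 / N ^ 2)
        + (α + γ * ((1 + 1 / η) * (t0 + 2) ^ 2)) / x
        + γ * (1 + η) * (x + 3 * (1 + x) ^ 2 / N) * v ^ 2) * ZZ N (x :: xs) := by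
  have hZ := ZZ_nonneg N xs hxs
  have hbad : ∀ q, 0 ≤ badb N t0 q v := fun q => by unfold badb; split_ifs <;> positivity
  have h1 : ∀ q, Ex N xs (fun ps => kb N w t0 (q :: ps) v) ≤
      (badb N t0 q v + N.choose (q + 1) * (α + γ * (vnext N t0 q v : ℝ) ^ 2)) * ZZ N xs := by
    intro q
    by_cases hv' : vnext N t0 q v ≤ w
    · simp only [kb, hv', if_true]
      rw [Ex_lin, Ex_aP, add_mul, mul_assoc]
      gcongr
      exact ih _ hv'
    · simp only [kb, hv', if_false, ← mul_assoc]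
      rw [Ex_smul, Ex_aP]
      gcongr
      have hq : q < N := by
        by_contra hq
        simp [vnext, hq] at hv'
      have h2 := vnext_lower N t0 q v hq
      have h3 := Nat.choose_succ_right_eq N q
      have h4 : v * N.choose q ≤ N.choose (q + 1) * vnext N t0 q v := by
        refine Nat.le_of_mul_le_mul_right ?_ (show 0 < q + 1 by omega)
        calc v * N.choose q * (q + 1) = N.choose q * (v * (q + 1)) := by ring
          _ ≤ N.choose q * (vnext N t0 q v * (N - q)) := by gcongr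
          _ = (N.choose q * (N - q)) * vnext N t0 q v := by ring
          _ = _ := by rw [← h3]; ring
      have h4' : (v : ℝ) * N.choose q ≤ N.choose (q + 1) * vnext N t0 q v := by exact_mod_cast h4
      have h5 : (w : ℝ) ≤ vnext N t0 q v := by exact_mod_cast (not_le.1 hv').le
      have h6 : (1 : ℝ) ≤ γ * vnext N t0 q v := le_trans hγ (by gcongr)
      have h7 : (vnext N t0 q v : ℝ) ≤ α + γ * (vnext N t0 q v : ℝ) ^ 2 := by
        have : (0 : ℝ) ≤ vnext N t0 q v := by positivity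
        nlinarith
      have h8 : (N.choose (q + 1) : ℝ) * vnext N t0 q v
          ≤ N.choose (q + 1) * (α + γ * (vnext N t0 q v : ℝ) ^ 2) := by gcongr
      linarith [hbad q]
  set c2 : ℝ := (1 + 1 / η) * (t0 + 2) ^ 2 with hc2
  have hc2' : 0 ≤ c2 := by positivity
  have h2 : ∀ q ∈ range (N + 1), x ^ q * (badb N t0 q v + N.choose (q + 1) *
      (α + γ * (vnext N t0 q v : ℝ) ^ 2)) ≤
      (N : ℝ) ^ 2 / t0 ^ 2 * (x ^ q * N.choose q) + w * (if q = N then x ^ N else 0)
        + (α + γ * c2) * (x ^ q * N.choose (q + 1))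
        + γ * (1 + η) * v ^ 2 *
          (x ^ q * (if q < N then (N.choose q : ℝ) * ((q + 1) / (N - q)) else 0)) := by
    intro q hq
    have hq' : q ≤ N := by have := mem_range.1 hq; omega
    have hxq : 0 ≤ x ^ q := by positivity
    rcases hq'.eq_or_lt with rfl | hq'
    · have hvw : (v : ℝ) ≤ w := by exact_mod_cast hv
      simp only [badb, lt_irrefl, if_false, if_true, Nat.choose_succ_self, Nat.cast_zero,
        zero_mul, mul_zero, add_zero]
      have : 0 ≤ (q : ℝ) ^ 2 / t0 ^ 2 * (x ^ q * q.choose q) := by positivity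
      nlinarith
    · simp only [badb, hq', if_true, hq'.ne, if_false, mul_zero, add_zero]
      have h3 := vnext_upper N t0 q v hq'
      set φ : ℝ := ((q : ℝ) + 1) / (N - q) with hφ
      have hNq : (0 : ℝ) < N - q := by
        have : (q : ℝ) < N := by exact_mod_cast hq'
        linarith
      have hφ0 : 0 ≤ φ := by positivity
      have h4 : (vnext N t0 q v : ℝ) ^ 2 ≤ (1 + η) * (v * φ) ^ 2 + c2 := by
        refine le_trans (pow_le_pow_left₀ (by positivity) h3 2) ?_
        have h5 : 0 ≤ (η * (v * φ) - (t0 + 2)) ^ 2 / η := by positivity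
        have h6 : (η * (v * φ) - (t0 + 2)) ^ 2 / η
            = η * (v * φ) ^ 2 - 2 * (v * φ) * (t0 + 2) + 1 / η * (t0 + 2) ^ 2 := by
          field_simp; ring
        rw [hc2]; nlinarith
      have h7 : (N.choose (q + 1) : ℝ) * φ = N.choose q := by
        have h1 := Nat.choose_succ_right_eq N q
        have h2 : (N.choose (q + 1) : ℝ) * (q + 1) = N.choose q * ((N : ℝ) - q) := by
          rw [← Nat.cast_sub hq'.le]; exact_mod_cast h1
        rw [hφ, ← mul_div_assoc, h2, mul_div_assoc, div_self hNq.ne', mul_one]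
      calc x ^ q * ((N.choose q : ℝ) * N ^ 2 / t0 ^ 2 + N.choose (q + 1) *
            (α + γ * (vnext N t0 q v : ℝ) ^ 2))
          ≤ x ^ q * ((N.choose q : ℝ) * N ^ 2 / t0 ^ 2 + N.choose (q + 1) *
            (α + γ * ((1 + η) * (v * φ) ^ 2 + c2))) := by gcongr
        _ = (N : ℝ) ^ 2 / t0 ^ 2 * (x ^ q * N.choose q)
            + (α + γ * c2) * (x ^ q * N.choose (q + 1))
            + γ * (1 + η) * v ^ 2 * (x ^ q * ((N.choose (q + 1) * φ) * φ)) := by ring
        _ = _ := by rw [h7]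
  have h3 : Ex N (x :: xs) (fun p => kb N w t0 p v) ≤
      (∑ q ∈ range (N + 1), x ^ q * (badb N t0 q v + N.choose (q + 1) *
        (α + γ * (vnext N t0 q v : ℝ) ^ 2))) * ZZ N xs := by
    rw [sum_mul]
    refine sum_le_sum fun q _ => ?_
    rw [mul_assoc]
    exact mul_le_mul_of_nonneg_left (h1 q) (by positivity)
  refine le_trans h3 ?_
  have e : ZZ N (x :: xs) = (1 + x) ^ N * ZZ N xs := by simp [ZZ]
  rw [e, ← mul_assoc]
  refine mul_le_mul_of_nonneg_right (le_trans (sum_le_sum h2) ?_) hZ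
  simp only [sum_add_distrib, ← mul_sum, binom1, sum_ite_eq', mem_range, Nat.lt_succ_self, if_true]
  have b2 : ∑ q ∈ range (N + 1), x ^ q * (N.choose (q + 1) : ℝ) ≤ (1 + x) ^ N / x := by
    rw [le_div_iff₀ hx, mul_comm]; exact binom2 N x
  have b3 := binom3 N hN x hx.le
  have b4 := binom4 N hN x hx.le
  calc _ ≤ (N : ℝ) ^ 2 / t0 ^ 2 * (1 + x) ^ N + w * (2 * (1 + x) ^ 2 / N ^ 2 * (1 + x) ^ N)
        + (α + γ * c2) * ((1 + x) ^ N / x)
        + γ * (1 + η) * v ^ 2 * ((x + 3 * (1 + x) ^ 2 / N) * (1 + x) ^ N) := by gcongr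
    _ = _ := by ring

/-- The nominal level stays in `[1, H]`. -/
def Lev (H Λ : ℝ) : List ℝ → ℝ → Prop
  | [], h => 1 ≤ h ∧ h ≤ H
  | x :: xs, h => (1 ≤ h ∧ h ≤ H) ∧ (0 < x ∧ (1 + x) ^ 2 ≤ Λ * x ∧ x ≤ Λ) ∧ Lev H Λ xs (h * x)

theorem Lev.bd {H Λ : ℝ} {xs : List ℝ} {h : ℝ} (hl : Lev H Λ xs h) : 1 ≤ h ∧ h ≤ H := by
  rcases xs with _ | _
  · exact hl
  · exact hl.1

theorem Lev.nonneg {H Λ : ℝ} {xs : List ℝ} {h : ℝ} (hl : Lev H Λ xs h) : ∀ x ∈ xs, 0 ≤ x := by
  induction xs generalizing h with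
  | nil => simp
  | cons x xs ih =>
    intro y hy
    rcases List.mem_cons.1 hy with rfl | hy
    · exact hl.2.1.1.le
    · exact ih hl.2.2 y hy

theorem Lev.append {H Λ : ℝ} {xs ys : List ℝ} {h : ℝ} (hl : Lev H Λ (xs ++ ys) h) :
    Lev H Λ xs h ∧ Lev H Λ ys (h * xs.prod) := by
  induction xs generalizing h with
  | nil => exact ⟨hl.bd, by simpa using hl⟩
  | cons x xs ih =>
    obtain ⟨h1, h2⟩ := ih hl.2.2
    exact ⟨⟨hl.1, hl.2.1, h1⟩, by simpa [mul_assoc] using h2⟩

theorem ex_seg (N w t0 T : ℕ) (hN : 0 < N) (hw : 0 < w) (H Λ E A : ℝ) (hΛ : 0 < Λ)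
    (hE : (1 + 3 * Λ / N) ^ (2 * T) ≤ E)
    (hA : (N : ℝ) ^ 2 / t0 ^ 2 + w * (2 * Λ ^ 2 / N ^ 2)
      + H * E * ((1 + 1 / (3 * Λ / N)) * (t0 + 2) ^ 2) / w ≤ A)
    (xs : List ℝ) (hT : xs.length ≤ T) (h : ℝ) (hl : Lev H Λ xs h) (v : ℕ) (hv : v ≤ w) :
    Ex N xs (fun p => kb N w t0 p v) ≤
      (xs.length * h * A + H / h * (1 + 3 * Λ / N) ^ (2 * xs.length) / w * v ^ 2) * ZZ N xs := by
  have hN' : (0 : ℝ) < N := by exact_mod_cast hN
  have hw' : (0 : ℝ) < w := by exact_mod_cast hw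
  set η : ℝ := 3 * Λ / N with hη
  have hη0 : 0 < η := by positivity
  have hE0 : 0 ≤ E := le_trans (by positivity) hE
  induction xs generalizing h v with
  | nil =>
    have := hl.bd
    have h0 : 0 < h := by linarith
    have h1 : 0 < H := by linarith
    simp only [Ex, kb, ZZ]
    simp
    positivity
  | cons x xs ih =>
    obtain ⟨⟨hh1, hhH⟩, ⟨hx, hxΛ, hxΛ'⟩, hl'⟩ := hl
    have hbd := hl'.bd
    have h0 : 0 < h := by linarith
    have hH0 : 0 < H := by linarith
    have hhx : 0 < h * x := by positivity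
    have hA0 : 0 ≤ A := le_trans (by positivity) hA
    simp only [List.length_cons] at hT
    have hpow : 1 ≤ (1 + η) ^ (2 * xs.length) := one_le_pow₀ (by linarith)
    have hpowE : (1 + η) ^ (2 * xs.length) ≤ E :=
      le_trans (pow_le_pow_right₀ (by linarith) (by omega)) hE
    have key := ex_step N w t0 hN x hx xs hl'.nonneg (xs.length * (h * x) * A)
      (H / (h * x) * (1 + η) ^ (2 * xs.length) / w) η (by positivity) (by positivity)
      (by
        rw [div_mul_cancel₀ _ hw'.ne']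
        have : 1 ≤ H / (h * x) := by rw [le_div_iff₀ hhx]; linarith
        nlinarith)
      hη0 (fun v' hv' => ih (by omega) (h * x) hl' v' hv') v hv
    refine le_trans key (mul_le_mul_of_nonneg_right ?_
      (ZZ_nonneg N _ (fun y hy => by
        rcases List.mem_cons.1 hy with rfl | hy
        · exact hx.le
        · exact hl'.nonneg y hy)))
    set c2 : ℝ := (1 + 1 / η) * (t0 + 2) ^ 2 with hc2
    have hc2' : 0 ≤ c2 := by positivity
    refine add_le_add ?_ ?_
    · have e1 : (xs.length * (h * x) * A + H / (h * x) * (1 + η) ^ (2 * xs.length) / w * c2) / x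
          = xs.length * h * A + h * (H * (1 + η) ^ (2 * xs.length) * c2 / w) / (h * x) ^ 2 := by
        field_simp
      have e2 : h * (H * (1 + η) ^ (2 * xs.length) * c2 / w) / (h * x) ^ 2
          ≤ h * (H * E * c2 / w) := by
        refine le_trans (div_le_self (by positivity) (one_le_pow₀ hbd.1)) ?_
        gcongr
      have e3 : (1 + x) ^ 2 ≤ Λ ^ 2 := by nlinarith
      have e4 : (N : ℝ) ^ 2 / t0 ^ 2 + w * (2 * (1 + x) ^ 2 / N ^ 2)
          ≤ h * ((N : ℝ) ^ 2 / t0 ^ 2 + w * (2 * Λ ^ 2 / N ^ 2)) := by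
        refine le_trans ?_ (le_mul_of_one_le_left (by positivity) hh1)
        gcongr
      have e5 : h * ((N : ℝ) ^ 2 / t0 ^ 2 + w * (2 * Λ ^ 2 / N ^ 2) + H * E * c2 / w) ≤ h * A := by
        gcongr
      rw [e1]
      simp only [List.length_cons]
      push_cast
      nlinarith
    · refine mul_le_mul_of_nonneg_right ?_ (by positivity)
      have e1 : x + 3 * (1 + x) ^ 2 / N ≤ x * (1 + η) := by
        have : 3 * (1 + x) ^ 2 / N ≤ 3 * (Λ * x) / N := by gcongr
        have e : x * (1 + η) = x + 3 * (Λ * x) / N := by rw [hη]; ring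
        linarith
      calc H / (h * x) * (1 + η) ^ (2 * xs.length) / w * (1 + η) * (x + 3 * (1 + x) ^ 2 / N)
          ≤ H / (h * x) * (1 + η) ^ (2 * xs.length) / w * (1 + η) * (x * (1 + η)) := by gcongr
        _ = H / h * (1 + η) ^ (2 * (x :: xs).length) / w := by
          simp only [List.length_cons]
          field_simp
          ring

end Vale.Agent.P346
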