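import Vale.Agent.P346.Defs

/-!
P346: the classical upper bound circuit, of size at most `n ^ (10 * (sqrt n + 1))`.
-/

namespace Vale.Agent.P346

open MvPolynomial

universe u

/-- Path expansion of an entry of a product of matrices. -/
theorem prod_ofFn_apply {R W : Type*} [CommSemiring R] [Fintype W] [DecidableEq W] :
    ∀ (m : ℕ) (M : Fin m → Matrix W W R) (s t : W),
      (List.ofFn M).prod s t =
        ∑ v : Fin (m + 1) → W, (if v 0 = s ∧ v (Fin.last m) = t then 1 else 0) *
          ∏ i : Fin m, M i (v i.castSucc) (v i.succ)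
  | 0, M, s, t => by
    rw [List.ofFn_zero, List.prod_nil, ← (Equiv.funUnique (Fin 1) W).symm.sum_comp]
    simp only [Matrix.one_apply, Finset.univ_eq_empty, Finset.prod_empty, mul_one]
    rw [Finset.sum_eq_single s]
    · simp
    · intro b _ hb
      simp [hb]
    · simp
  | m + 1, M, s, t => by
    rw [List.ofFn_succ, List.prod_cons, Matrix.mul_apply,
      ← (Fin.consEquiv fun _ : Fin (m + 2) => W).sum_comp, Fintype.sum_prod_type]
    simp only [prod_ofFn_apply m, Finset.mul_sum]
    rw [Finset.sum_comm, Finset.sum_comm (s := Finset.univ (α := W))]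
    refine Finset.sum_congr rfl fun v _ => ?_
    rw [Finset.sum_eq_single (v 0), Finset.sum_eq_single s]
    · simp only [Fin.consEquiv_apply, Fin.cons_zero, true_and, Fin.prod_univ_succ,
        Fin.castSucc_zero, Fin.cons_succ, ← Fin.succ_last, Fin.castSucc_succ]
      ring
    · intro b _ hb
      simp [hb]
    · simp
    · intro b _ hb
      simp [Ne.symm hb]
    · simp

/-- Cutting a padded product of `b * b` matrices into `b` blocks of length `b`. -/
theorem prod_blocks {A : Type*} [Monoid A] (n b : ℕ) (h : n ≤ b * b) (M : ℕ → A)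
    (hM : ∀ k, n ≤ k → M k = 1) :
    (List.ofFn fun i : Fin n => M i).prod =
      (List.ofFn fun j : Fin b => (List.ofFn fun i : Fin b => M (j * b + i)).prod).prod := by
  have h1 : ∀ d, (List.ofFn fun i : Fin (n + d) => M i).prod =
      (List.ofFn fun i : Fin n => M i).prod := by
    intro d
    induction d with
    | zero => rfl
    | succ d ih =>
      rw [← ih]
      show (List.ofFn fun i : Fin (n + d + 1) => M i).prod = _
      rw [List.ofFn_succ', List.prod_concat]
      simp [hM (n + d) (Nat.le_add_right _ _)]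
  obtain ⟨d, hd⟩ := Nat.exists_eq_add_of_le h
  rw [← h1 d, ← hd, List.ofFn_mul, List.prod_flatten, List.map_ofFn]
  rfl

section

variable (K : Type u) [Field K] (n b : ℕ) [NeZero n]

/-- Padded sequence of generic matrices. -/
noncomputable def padM (k : ℕ) :
    Matrix (Fin n) (Fin n) (MvPolynomial (Fin n × Fin n × Fin n) K) :=
  if h : k < n then Matrix.of fun a c : Fin n => X (⟨k, h⟩, a, c) else 1

abbrev T0 := Fin n × Fin n × Fin n
abbrev T2 := Fin b × (Fin (b + 1) → Fin n)
abbrev T3 := Fin b × Fin n × Fin n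
abbrev T4 := Fin (b + 1) → Fin n

noncomputable def e0 := Fintype.equivFin (T0 n)
noncomputable def e2 := Fintype.equivFin (T2 n b)
noncomputable def e3 := Fintype.equivFin (T3 n b)
noncomputable def e4 := Fintype.equivFin (T4 n b)

/-- The inputs of a lower product gate. -/
def low (g : T2 n b) : Multiset (T0 n) :=
  ∑ i : Fin b, if h : g.1 * b + i < n then {(⟨g.1 * b + i, h⟩, g.2 i.castSucc, g.2 i.succ)} else 0

/-- The coefficient of a lower product gate in a middle sum gate. -/
def mid (g : T3 n b) (p : T2 n b) : K :=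
  (if p.2 0 = g.2.1 ∧ p.2 (Fin.last b) = g.2.2 then 1 else 0) *
    ∏ i : Fin b, if p.1 * b + i < n then 1 else if p.2 i.castSucc = p.2 i.succ then 1 else 0

/-- The inputs of a top product gate. -/
def top (u : T4 n b) : Multiset (T3 n b) :=
  ∑ j : Fin b, {(j, u j.castSucc, u j.succ)}

/-- The circuit. -/
noncomputable def upC : Circuit K (Fin n × Fin n × Fin n) where
  n0 := Fintype.card (T0 n)
  n1 := Fintype.card (T0 n)
  n2 := Fintype.card (T2 n b)
  n3 := Fintype.card (T3 n b)
  n4 := Fintype.card (T4 n b)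
  leaf g := Sum.inl ((e0 n).symm g)
  in1 g := {g}
  co1 _ _ := 1
  in2 g := (low n b ((e2 n b).symm g)).map (e0 n)
  in3 g := Finset.univ.filter fun p => ((e2 n b).symm p).1 = ((e3 n b).symm g).1
  co3 g p := mid K n b ((e3 n b).symm g) ((e2 n b).symm p)
  in4 g := (top n b ((e4 n b).symm g)).map (e3 n b)
  in5 := Finset.univ
  co5 g := if (e4 n b).symm g 0 = 0 ∧ (e4 n b).symm g (Fin.last b) = 0 then 1 else 0

noncomputable def f0 : T0 n ≃ Fin (upC K n b).n1 := e0 n
noncomputable def f2 : T2 n b ≃ Fin (upC K n b).n2 := e2 n b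
noncomputable def f3 : T3 n b ≃ Fin (upC K n b).n3 := e3 n b
noncomputable def f4 : T4 n b ≃ Fin (upC K n b).n4 := e4 n b

theorem upC_in2 (p : T2 n b) : (upC K n b).in2 (f2 K n b p) = (low n b p).map (f0 K n b) := by
  show (low n b ((e2 n b).symm (e2 n b p))).map (e0 n) = _
  rw [Equiv.symm_apply_apply]
  rfl

theorem upC_in3 (g : T3 n b) : (upC K n b).in3 (f3 K n b g) =
    Finset.univ.filter fun p => ((f2 K n b).symm p).1 = g.1 := by
  show (Finset.univ.filter fun p => ((e2 n b).symm p).1 = ((e3 n b).symm (e3 n b g)).1) = _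
  rw [Equiv.symm_apply_apply]
  rfl

theorem upC_co3 (g : T3 n b) (p : T2 n b) :
    (upC K n b).co3 (f3 K n b g) (f2 K n b p) = mid K n b g p := by
  show mid K n b ((e3 n b).symm (e3 n b g)) ((e2 n b).symm (e2 n b p)) = _
  rw [Equiv.symm_apply_apply, Equiv.symm_apply_apply]

theorem upC_in4 (v : T4 n b) : (upC K n b).in4 (f4 K n b v) = (top n b v).map (f3 K n b) := by
  show (top n b ((e4 n b).symm (e4 n b v))).map (e3 n b) = _
  rw [Equiv.symm_apply_apply]
  rfl

theorem upC_co5 (v : T4 n b) : (upC K n b).co5 (f4 K n b v) =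
    if v 0 = 0 ∧ v (Fin.last b) = 0 then 1 else 0 := by
  show (if (e4 n b).symm (e4 n b v) 0 = 0 ∧ (e4 n b).symm (e4 n b v) (Fin.last b) = 0
    then (1 : K) else 0) = _
  rw [Equiv.symm_apply_apply]

theorem upC_val1 (x : T0 n) : (upC K n b).val1 (f0 K n b x) = X x := by
  show ∑ j ∈ {e0 n x}, C 1 * (X ((e0 n).symm j) : MvPolynomial (T0 n) K) = _
  simp

theorem upC_deg1 (x : T0 n) : (upC K n b).deg1 (f0 K n b x) = 1 := by
  show ({e0 n x} : Finset _).sup (fun _ => 1) = 1
  simp

theorem upC_val2 (p : T2 n b) : (upC K n b).val2 (f2 K n b p) =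
    ∏ i : Fin b, if h : p.1 * b + i < n then
      X (⟨p.1 * b + i, h⟩, p.2 i.castSucc, p.2 i.succ) else 1 := by
  rw [Circuit.val2, upC_in2, Multiset.map_map]
  have h2 : ((upC K n b).val1 ∘ f0 K n b) = fun x => X x := funext fun x => upC_val1 K n b x
  rw [h2, low, ← Multiset.coe_mapAddMonoidHom, map_sum, Multiset.prod_sum]
  refine Finset.prod_congr rfl fun i _ => ?_
  split_ifs <;> simp

theorem upC_deg2 (p : T2 n b) : (upC K n b).deg2 (f2 K n b p) =
    ∑ i : Fin b, if p.1 * b + i < n then 1 else 0 := by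
  rw [Circuit.deg2, upC_in2, Multiset.map_map]
  have h2 : ((upC K n b).deg1 ∘ f0 K n b) = fun _ => 1 := funext fun x => upC_deg1 K n b x
  rw [h2, low, ← Multiset.coe_mapAddMonoidHom, map_sum, Multiset.sum_sum]
  refine Finset.sum_congr rfl fun i _ => ?_
  split_ifs <;> simp

theorem upC_val3 (g : T3 n b) : (upC K n b).val3 (f3 K n b g) =
    (List.ofFn fun i : Fin b => padM K n (g.1 * b + i)).prod g.2.1 g.2.2 := by
  have h1 : (upC K n b).val3 (f3 K n b g) =
      ∑ p : T2 n b, if p.1 = g.1 then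
        C (mid K n b g p) * (upC K n b).val2 (f2 K n b p) else 0 := by
    rw [Circuit.val3, upC_in3, Finset.sum_filter, ← (f2 K n b).sum_comp]
    refine Finset.sum_congr rfl fun p _ => ?_
    rw [Equiv.symm_apply_apply, upC_co3]
  rw [h1, prod_ofFn_apply, Fintype.sum_prod_type, Finset.sum_eq_single g.1]
  · refine Finset.sum_congr rfl fun v _ => ?_
    rw [if_pos rfl, upC_val2, mid, map_mul, map_prod, mul_assoc, ← Finset.prod_mul_distrib]
    congr 1
    · split_ifs <;> simp
    · refine Finset.prod_congr rfl fun i _ => ?_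
      by_cases h : g.1 * b + i < n
      · simp [padM, h]
      · simp only [padM, h, if_false, dif_neg, not_false_eq_true, mul_one, Matrix.one_apply]
        split_ifs <;> simp
  · intro j _ hj
    simp [hj]
  · simp

theorem upC_deg2_of_mem (g : T3 n b) (q) (hq : q ∈ (upC K n b).in3 (f3 K n b g)) :
    (upC K n b).deg2 q = ∑ i : Fin b, if g.1 * b + i < n then 1 else 0 := by
  obtain ⟨p, rfl⟩ := (f2 K n b).surjective q
  rw [upC_in3, Finset.mem_filter, Equiv.symm_apply_apply] at hq
  rw [upC_deg2, hq.2]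

theorem upC_deg3 (g : T3 n b) : (upC K n b).deg3 (f3 K n b g) =
    ∑ i : Fin b, if g.1 * b + i < n then 1 else 0 := by
  rw [Circuit.deg3, Finset.sup_congr rfl (upC_deg2_of_mem K n b g), Finset.sup_const]
  exact ⟨f2 K n b (g.1, fun _ => 0), by rw [upC_in3]; simp⟩

theorem upC_val4 (v : T4 n b) : (upC K n b).val4 (f4 K n b v) =
    ∏ j : Fin b, (List.ofFn fun i : Fin b => padM K n (j * b + i)).prod
      (v j.castSucc) (v j.succ) := by
  rw [Circuit.val4, upC_in4, Multiset.map_map, top, ← Multiset.coe_mapAddMonoidHom, map_sum,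
    Multiset.prod_sum]
  refine Finset.prod_congr rfl fun j _ => ?_
  simpa using upC_val3 K n b (j, v j.castSucc, v j.succ)

theorem upC_deg4 (v : T4 n b) : (upC K n b).deg4 (f4 K n b v) =
    ∑ j : Fin b, ∑ i : Fin b, if j * b + i < n then 1 else 0 := by
  rw [Circuit.deg4, upC_in4, Multiset.map_map, top, ← Multiset.coe_mapAddMonoidHom, map_sum,
    Multiset.sum_sum]
  refine Finset.sum_congr rfl fun j _ => ?_
  simpa using upC_deg3 K n b (j, v j.castSucc, v j.succ)

theorem upC_homogeneous : (upC K n b).Homogeneous := by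
  refine ⟨?_, ?_, ?_⟩
  · intro g i _ j _
    rfl
  · intro g i hi j hj
    obtain ⟨g, rfl⟩ := (f3 K n b).surjective g
    rw [upC_deg2_of_mem K n b g i hi, upC_deg2_of_mem K n b g j hj]
  · intro i _ j _
    obtain ⟨p, rfl⟩ := (f4 K n b).surjective i
    obtain ⟨q, rfl⟩ := (f4 K n b).surjective j
    rw [upC_deg4, upC_deg4]

theorem upC_output (h : n ≤ b * b) : (upC K n b).output = IMM K n n := by
  have h1 : IMM K n n = (List.ofFn fun i : Fin n => padM K n i).prod 0 0 := by
    simp [IMM, padM]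
  have h5 : (upC K n b).in5 = Finset.univ := rfl
  rw [h1, prod_blocks n b h (padM K n) (fun k hk => by simp [padM, not_lt.2 hk]),
    prod_ofFn_apply, Circuit.output, h5, ← (f4 K n b).sum_comp]
  refine Finset.sum_congr rfl fun v _ => ?_
  rw [upC_val4, upC_co5]
  congr 1
  split_ifs <;> simp

end

theorem upper (K : Type u) [Field K] (n : ℕ) [NeZero n] (hn : 2 ≤ n) :
    ∃ G : Circuit K (Fin n × Fin n × Fin n), G.Homogeneous ∧ G.output = IMM K n n ∧
      G.size ≤ n ^ (10 * (Nat.sqrt n + 1)) := by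
  refine ⟨upC K n (Nat.sqrt n + 1), upC_homogeneous K n _,
    upC_output K n _ (Nat.lt_succ_sqrt n).le, ?_⟩
  have hb : Nat.sqrt n + 1 ≤ n := Nat.sqrt_lt_self (by omega)
  generalize hB : Nat.sqrt n + 1 = b at hb
  have hb1 : 1 ≤ b := by omega
  have hn1 : 1 ≤ n := by omega
  simp only [Circuit.size, upC, Fintype.card_prod, Fintype.card_fin, Fintype.card_pi,
    Finset.prod_const, Finset.card_univ]
  have p1 : n * (n * n) ≤ n ^ (b + 2) := by
    calc n * (n * n) = n ^ 3 := by ring
      _ ≤ n ^ (b + 2) := Nat.pow_le_pow_right hn1 (by omega)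
  have p2 : b * n ^ (b + 1) ≤ n ^ (b + 2) := by
    calc b * n ^ (b + 1) ≤ n * n ^ (b + 1) := Nat.mul_le_mul_right _ hb
      _ = n ^ (b + 2) := by ring
  have p3 : b * (n * n) ≤ n ^ (b + 2) := (Nat.mul_le_mul_right _ hb).trans p1
  have p4 : n ^ (b + 1) ≤ n ^ (b + 2) := Nat.pow_le_pow_right hn1 (by omega)
  have p5 : 1 ≤ n ^ (b + 2) := Nat.one_le_pow _ _ hn1
  have p6 : 8 ≤ n ^ 3 := by
    calc 8 = 2 ^ 3 := by norm_num
      _ ≤ n ^ 3 := Nat.pow_le_pow_left hn 3
  have p7 : n ^ 3 * n ^ (b + 2) ≤ n ^ (10 * b) := by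
    rw [← pow_add]
    exact Nat.pow_le_pow_right hn1 (by omega)
  have p8 : 8 * n ^ (b + 2) ≤ n ^ 3 * n ^ (b + 2) := Nat.mul_le_mul_right _ p6
  omega

end Vale.Agent.P346
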