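import Vale.Agent.P346.Core
import Vale.Agent.P346.Upper

namespace Vale.Agent.P346

open Finset MvPolynomial

universe u

theorem lower_y (K : Type u) [Field K] (n : ℕ) [NeZero n] (y : ℕ) (hy : 2 ^ 163 ≤ y)
    (h1 : 8 * y ^ 160 ≤ n) (h2 : n ≤ y ^ 161)
    (Γ : Circuit K (Fin n × Fin n × Fin n)) (hΓ : Γ.Homogeneous) (hout : Γ.output = IMM K n n) :
    (y : ℝ) ^ (y ^ 80) ≤ (Γ.size : ℝ) ^ 4 := by
  have hy1000 : 1000 ≤ y := le_trans (by norm_num) hy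
  have hy0 : 0 < y := by omega
  obtain ⟨Y, hY⟩ : ∃ Y : ℝ, Y = y := ⟨_, rfl⟩
  have hY1 : (1000 : ℝ) ≤ Y := by rw [hY]; exact_mod_cast hy1000
  have hY0 : 0 < Y := by linarith
  have hYone : 1 ≤ Y := by linarith
  obtain ⟨ρ, hρ⟩ : ∃ ρ, ρ = y ^ 80 := ⟨_, rfl⟩
  have hρ0 : 0 < ρ := by rw [hρ]; positivity
  obtain ⟨c, hc0, hcρ⟩ : ∃ c : ℝ, 0 ≤ c ∧ c ^ ρ = Y :=
    ⟨Y ^ ((ρ : ℝ)⁻¹), by positivity, Real.rpow_inv_natCast_pow hY0.le hρ0.ne'⟩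
  have hc1 : 1 ≤ c := by
    by_contra h
    have := pow_lt_one₀ hc0 (not_le.1 h) hρ0.ne'
    linarith
  have hc2 : c ≤ 2 := by
    by_contra h
    have h3 : (2 : ℝ) ^ ρ ≤ c ^ ρ := pow_le_pow_left₀ (by norm_num) (not_le.1 h).le _
    have h4 : y < 2 ^ ρ := lt_of_le_of_lt (by rw [hρ]; exact Nat.le_self_pow (by norm_num) y)
      Nat.lt_two_pow_self
    have h5 : (y : ℝ) < 2 ^ ρ := by exact_mod_cast h4
    linarith
  have hcpos : 0 < c := by linarith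
  have hn1 : Y ^ 160 ≤ n := by
    rw [hY]; exact_mod_cast le_trans (by omega) h1
  have hn2 : (n : ℝ) ≤ Y ^ 161 := by rw [hY]; exact_mod_cast h2
  have hc6 : c ^ (6 * ρ) = Y ^ 6 := by rw [mul_comm, pow_mul, hcρ]
  have hH : c ^ (4 * (3 * ρ) + 2) ≤ Y ^ 13 := by
    have : c ^ (4 * (3 * ρ) + 2) = Y ^ 12 * c ^ 2 := by rw [← hcρ]; ring
    rw [this, pow_succ Y 12]
    gcongr
    nlinarith
  have hY6 : 1 ≤ Y ^ 6 := one_le_pow₀ hYone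
  have hη : 3 * Y ^ 7 / ((y ^ 90 : ℕ) : ℝ) = 3 / Y ^ 83 := by
    push_cast; rw [← hY]; field_simp
  have key := core K n ρ (y ^ 90) (y ^ 60) (y ^ 82) (y ^ 79) c (Y ^ 7) 3 (Y ^ 61) hρ0
    (by rw [hρ, ← pow_mul]; exact h1) (by positivity) (by positivity) hc1
    (by
      have : c ^ (2 * (3 * ρ) + 1) = Y ^ 6 * c := by rw [← hcρ]; ring
      rw [this]
      have : Y ≤ Y ^ 6 := le_self_pow₀ hYone (by norm_num)
      nlinarith)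
    (by positivity)
    (by
      rintro e (rfl | rfl)
      · have : c ^ (-2 * ((3 * ρ : ℕ) : ℤ)) = (Y ^ 6)⁻¹ := by
          rw [← hc6, ← zpow_natCast, ← zpow_neg]; congr 1; push_cast; ring
        rw [this]
        have h3 : (Y ^ 6)⁻¹ ≤ 1 := inv_le_one_of_one_le₀ hY6
        have h4 : 0 ≤ (Y ^ 6)⁻¹ := by positivity
        have h5 : Y ^ 7 * (Y ^ 6)⁻¹ = Y := by field_simp
        refine ⟨by rw [h5]; nlinarith, le_trans h3 (one_le_pow₀ hYone)⟩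
      · have : c ^ (-2 * (-(((3 * ρ : ℕ) : ℤ) + 1))) = Y ^ 6 * c ^ 2 := by
          rw [← hc6, ← pow_add, ← zpow_natCast]; congr 1; push_cast; ring
        rw [this]
        have h3 : 1 ≤ c ^ 2 := one_le_pow₀ hc1
        have h4 : c ^ 2 ≤ 4 := by nlinarith
        have h5 : 1 ≤ Y ^ 6 * c ^ 2 := by nlinarith
        have h6 : 4 * (Y ^ 6 * c ^ 2) ≤ Y ^ 7 := by
          rw [pow_succ Y 6]; nlinarith
        refine ⟨?_, by linarith⟩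
        nlinarith)
    (by
      rw [hη]
      calc (1 + 3 / Y ^ 83) ^ (2 * y ^ 82) ≤ Real.exp (3 / Y ^ 83) ^ (2 * y ^ 82) := by
            gcongr; linarith [Real.add_one_le_exp (3 / Y ^ 83)]
        _ = Real.exp (6 / Y) := by
            rw [← Real.exp_nat_mul]; congr 1; push_cast; rw [← hY]; field_simp; ring
        _ ≤ Real.exp 1 := by
            gcongr; rw [div_le_one hY0]; linarith
        _ ≤ 3 := Real.exp_one_lt_three.le)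
    (by
      rw [hη]
      push_cast
      rw [← hY]
      have t1 : (Y ^ 90) ^ 2 / (Y ^ 60) ^ 2 = Y ^ 60 := by field_simp
      have t2 : (n : ℝ) * (2 * (Y ^ 7) ^ 2 / (Y ^ 90) ^ 2) ≤ Y ^ 60 := by
        calc (n : ℝ) * (2 * (Y ^ 7) ^ 2 / (Y ^ 90) ^ 2)
            ≤ Y ^ 161 * (Y * (Y ^ 7) ^ 2 / (Y ^ 90) ^ 2) := by gcongr; linarith
          _ = 1 / Y ^ 4 := by field_simp
          _ ≤ 1 := by rw [div_le_one (by positivity)]; exact one_le_pow₀ hYone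
          _ ≤ Y ^ 60 := one_le_pow₀ hYone
      have t3 : c ^ (4 * (3 * ρ) + 2) * 3 * ((1 + 1 / (3 / Y ^ 83)) * (Y ^ 60 + 2) ^ 2) / n
          ≤ Y ^ 60 := by
        have a1 : 1 + 1 / (3 / Y ^ 83) ≤ Y ^ 83 := by
          have : Y ≤ Y ^ 83 := le_self_pow₀ hYone (by norm_num)
          rw [one_div_div]; linarith
        have a2 : Y ^ 60 + 2 ≤ Y ^ 61 := by
          have : 1 ≤ Y ^ 60 := one_le_pow₀ hYone
          rw [pow_succ Y 60]; nlinarith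
        calc c ^ (4 * (3 * ρ) + 2) * 3 * ((1 + 1 / (3 / Y ^ 83)) * (Y ^ 60 + 2) ^ 2) / n
            ≤ Y ^ 13 * Y * (Y ^ 83 * (Y ^ 61) ^ 2) / Y ^ 160 := by gcongr; linarith
          _ = Y ^ 59 := by field_simp
          _ ≤ Y ^ 60 := pow_le_pow_right₀ hYone (by norm_num)
      have : 0 ≤ Y ^ 60 := by positivity
      rw [t1, pow_succ Y 60]
      nlinarith)
    (by
      push_cast
      rw [← hY]
      have a1 : 4 * Y ^ 82 * Y ^ 61 + 1 ≤ Y ^ 144 := by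
        have : 1 ≤ Y ^ 143 := one_le_pow₀ hYone
        have e : 4 * Y ^ 82 * Y ^ 61 = 4 * Y ^ 143 := by ring
        rw [e, pow_succ Y 143]; nlinarith
      calc 4 * c ^ (4 * (3 * ρ) + 2) * 3 * (4 * Y ^ 82 * Y ^ 61 + 1)
          ≤ Y * Y ^ 13 * Y * Y ^ 144 := by gcongr <;> linarith
        _ = Y ^ 159 := by ring
        _ ≤ Y ^ 160 := pow_le_pow_right₀ hYone (by norm_num)
        _ ≤ n := hn1)
    (by rw [← pow_add]; exact h2) Γ hΓ hout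
  rw [← hY, ← hρ]
  rw [hcρ] at key
  have b1 : (2 * n : ℝ) ^ (y ^ 79) ≤ Y ^ (162 * y ^ 79) := by
    rw [pow_mul]
    gcongr
    rw [pow_succ' Y 161]
    gcongr
    linarith
  have b2 : c ^ (3 * ρ) = Y ^ 3 := by rw [mul_comm, pow_mul, hcρ]
  have b3 : (4 / Y) ^ (2 * ρ) ≤ (1 / Y) ^ ρ := by
    rw [pow_mul]
    gcongr
    rw [div_pow, div_le_div_iff₀ (by positivity) hY0]
    nlinarith
  have b4 : 1 ≤ Y ^ (162 * y ^ 79 + 4) * (Γ.size : ℝ) ^ 2 / Y ^ ρ := by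
    calc (1 : ℝ) ≤ _ := key
      _ ≤ Y ^ (162 * y ^ 79) * ((Γ.size : ℝ) ^ 2 * (Y ^ 3 * (Y * (1 / Y) ^ ρ))) := by
        rw [b2]; gcongr; linarith
      _ = _ := by rw [one_div, inv_pow]; field_simp; ring
  rw [le_div_iff₀ (by positivity), one_mul] at b4
  have b5 : 2 * (162 * y ^ 79 + 4) ≤ ρ := by
    have : 1 ≤ y ^ 79 := Nat.one_le_pow _ _ hy0
    rw [hρ, pow_succ y 79]; nlinarith
  have b6 : (Y ^ (162 * y ^ 79 + 4)) ^ 2 ≤ Y ^ ρ := by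
    rw [← pow_mul, mul_comm]; exact pow_le_pow_right₀ hYone b5
  have hpos : 0 < Y ^ ρ := by positivity
  refine le_of_mul_le_mul_left ?_ hpos
  calc Y ^ ρ * Y ^ ρ ≤ (Y ^ (162 * y ^ 79 + 4) * (Γ.size : ℝ) ^ 2) *
        (Y ^ (162 * y ^ 79 + 4) * (Γ.size : ℝ) ^ 2) := by gcongr
    _ = (Y ^ (162 * y ^ 79 + 4)) ^ 2 * (Γ.size : ℝ) ^ 4 := by ring
    _ ≤ _ := by gcongr

theorem final_ineq (n y S : ℕ) (hy' : (1 : ℝ) ≤ y) (h3 : (n : ℝ) ≤ 2 ^ 163 * (y : ℝ) ^ 160)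
    (h4 : (n : ℝ) ≤ (y : ℝ) ^ 161) (key : (y : ℝ) ^ (y ^ 80) ≤ (S : ℝ) ^ 4) :
    (n : ℝ) ^ ((1 / 2 ^ 92 : ℝ) * Real.sqrt n) ≤ S := by
  have hy0 : (0 : ℝ) ≤ y := Nat.cast_nonneg y
  have h80 : (0 : ℝ) ≤ (y : ℝ) ^ 80 := pow_nonneg hy0 _
  have h160 : (0 : ℝ) ≤ (y : ℝ) ^ 160 := pow_nonneg hy0 _
  have h5 : Real.sqrt n ≤ 2 ^ 82 * (y : ℝ) ^ 80 := by
    rw [Real.sqrt_le_left (mul_nonneg (by norm_num) h80)]
    have e : (2 ^ 82 * (y : ℝ) ^ 80) ^ 2 = 2 * (2 ^ 163 * (y : ℝ) ^ 160) := by ring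
    rw [e]; linarith
  refine le_of_pow_le_pow_left₀ (n := 4) (by norm_num) (Nat.cast_nonneg S) (le_trans ?_ key)
  have h6 : (n : ℝ) ≤ (y : ℝ) ^ (161 : ℝ) := by
    rw [show (161 : ℝ) = ((161 : ℕ) : ℝ) by norm_num, Real.rpow_natCast]; exact h4
  have h7 : 0 ≤ (1 / 2 ^ 92 : ℝ) * Real.sqrt n := mul_nonneg (by norm_num) (Real.sqrt_nonneg _)
  calc ((n : ℝ) ^ ((1 / 2 ^ 92 : ℝ) * Real.sqrt n)) ^ 4
      ≤ (((y : ℝ) ^ (161 : ℝ)) ^ ((1 / 2 ^ 92 : ℝ) * Real.sqrt n)) ^ 4 :=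
        pow_le_pow_left₀ (Real.rpow_nonneg (Nat.cast_nonneg n) _)
          (Real.rpow_le_rpow (Nat.cast_nonneg n) h6 h7) 4
    _ = (y : ℝ) ^ (161 * ((1 / 2 ^ 92 : ℝ) * Real.sqrt n) * ((4 : ℕ) : ℝ)) := by
        rw [← Real.rpow_mul hy0, ← Real.rpow_natCast, ← Real.rpow_mul hy0]
    _ ≤ (y : ℝ) ^ (((y ^ 80 : ℕ) : ℝ)) := by
        refine Real.rpow_le_rpow_of_exponent_le hy' ?_
        push_cast
        linarith
    _ = _ := Real.rpow_natCast _ _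

theorem lower_Y (K : Type u) [Field K] (Y : ℕ) (hY : 2 ^ 163 ≤ Y) (n : ℕ) [NeZero n]
    (hn : 8 * Y ^ 160 ≤ n)
    (Γ : Circuit K (Fin n × Fin n × Fin n)) (hΓ : Γ.Homogeneous) (hout : Γ.output = IMM K n n) :
    (n : ℝ) ^ ((1 / 2 ^ 92 : ℝ) * Real.sqrt n) ≤ Γ.size := by
  obtain ⟨y, hy1, hy2⟩ : ∃ y, y ^ 160 ≤ n / 8 ∧ n / 8 < (y + 1) ^ 160 :=
    ⟨Nat.nthRoot 160 (n / 8), Nat.pow_nthRoot_le (Or.inl (by norm_num)),
      Nat.lt_pow_nthRoot_add_one (by norm_num) _⟩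
  have hYy : Y ≤ y := by
    by_contra h
    have : (y + 1) ^ 160 ≤ Y ^ 160 := Nat.pow_le_pow_left (by omega) _
    omega
  have hy : 2 ^ 163 ≤ y := le_trans hY hYy
  have hy0 : 1 ≤ y := le_trans (by norm_num) hy
  have h3 : n ≤ 2 ^ 163 * y ^ 160 := by
    have : (y + 1) ^ 160 ≤ (2 * y) ^ 160 := Nat.pow_le_pow_left (by omega) _
    rw [mul_pow] at this
    omega
  have h4 : n ≤ y ^ 161 := by
    rw [pow_succ' y 160]
    exact le_trans h3 (Nat.mul_le_mul_right _ hy)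
  have key := lower_y K n y hy (by omega) h4 Γ hΓ hout
  have hy' : (1 : ℝ) ≤ y := by exact_mod_cast hy0
  have h3' : (n : ℝ) ≤ 2 ^ 163 * (y : ℝ) ^ 160 := by exact_mod_cast h3
  have h4' : (n : ℝ) ≤ (y : ℝ) ^ 161 := by exact_mod_cast h4
  exact final_ineq n y _ hy' h3' h4' key

theorem main : ∃ c C : ℝ, 0 < c ∧ ∃ n₀ : ℕ, ∀ (K : Type u) [Field K] (n : ℕ) [NeZero n], n₀ ≤ n →
    (n : ℝ) ^ (c * Real.sqrt n) ≤ s K n ∧ (s K n : ℝ) ≤ (n : ℝ) ^ (C * Real.sqrt n) := by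
  obtain ⟨Y, hY⟩ : ∃ Y : ℕ, 2 ^ 163 ≤ Y := ⟨_, le_rfl⟩
  refine ⟨1 / 2 ^ 92, 20, by positivity, 8 * Y ^ 160, fun K _ n _ hn => ?_⟩
  have hY1 : 1 ≤ Y ^ 160 := Nat.one_le_pow _ _ (lt_of_lt_of_le (by norm_num) hY)
  obtain ⟨G, hG1, hG2, hG3⟩ := upper K n (by omega)
  constructor
  · obtain ⟨Γ, h1, h2, h3⟩ := Nat.sInf_mem (s := {m : ℕ | ∃ Γ : Circuit K (Fin n × Fin n × Fin n),
      Γ.Homogeneous ∧ Γ.output = IMM K n n ∧ Γ.size = m}) ⟨_, G, hG1, hG2, rfl⟩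
    have := lower_Y K Y hY n hn Γ h1 h2
    rwa [h3] at this
  · have h1 : s K n ≤ G.size := Nat.sInf_le ⟨G, hG1, hG2, rfl⟩
    have h2 : (s K n : ℝ) ≤ (n : ℝ) ^ (10 * (Nat.sqrt n + 1)) := by
      exact_mod_cast le_trans h1 hG3
    refine le_trans h2 ?_
    rw [← Real.rpow_natCast]
    refine Real.rpow_le_rpow_of_exponent_le (by exact_mod_cast (show 1 ≤ n by omega)) ?_
    have h3 : (Nat.sqrt n : ℝ) ≤ Real.sqrt n := Real.nat_sqrt_le_real_sqrt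
    have h4 : (1 : ℝ) ≤ Real.sqrt n := by
      rw [Real.one_le_sqrt]; exact_mod_cast (show 1 ≤ n by omega)
    push_cast
    linarith

end Vale.Agent.P346
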