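import Vale.Agent.P346.Defs

namespace Vale.Agent.P346

open MvPolynomial

universe u

/-- `GT Good t T`: `T` is a product of `t` homogeneous factors with degrees in `Good`
and one more homogeneous factor. -/
def GT {K : Type u} [Field K] {σ : Type} (Good : ℕ → Prop) : ℕ → MvPolynomial σ K → Prop
  | 0, R => ∃ D, R.IsHomogeneous D
  | t + 1, T => ∃ G T' D, Good D ∧ G.IsHomogeneous D ∧ GT Good t T' ∧ T = G * T'

end Vale.Agent.P346
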