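import Mathlib

namespace Vale.Agent.P346

open Finset

theorem hankel {α K : Type*} [DecidableEq α] [AddCommMonoid K] (M : ℕ) :
    ∀ (cols q0 : ℕ) (z : ℕ → α) (h : ℕ → Finset α → K), cols + q0 = M →
      (∀ a b, a < cols + q0 → b < cols + q0 → z a = z b → a = b) →
      (∀ c J, c < cols → h c J ≠ 0 → (J ∩ (range (cols + q0)).image z).card ≤ q0) →
      (∀ i, i ≤ q0 → ∀ J' : Finset α,
        ∑ c ∈ range cols, (if z (c + i) ∈ J' then h c (J'.erase (z (c + i))) else 0) = 0) →
      ∀ c, c < cols → ∀ J, h c J = 0 := by
  induction M with
  | zero => intro cols q0 z h hM _ _ _ c hc; omega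
  | succ M ih =>
    intro cols q0 z h hM hz hsupp heq
    rcases Nat.eq_zero_or_pos cols with rfl | hcols
    · intro c hc; omega
    obtain ⟨cols', rfl⟩ : ∃ k, cols = k + 1 := ⟨cols - 1, by omega⟩
    have hne : ∀ a, a + 1 < cols' + 1 + q0 → z (a + 1) ≠ z 0 := by
      intro a ha hh
      have := hz (a + 1) 0 ha (by omega) hh
      omega
    -- step 1
    have h1 : ∀ c, c < cols' + 1 → ∀ J, z 0 ∈ J → h c J = 0 := by
      rcases Nat.eq_zero_or_pos q0 with rfl | hq0
      · intro c hc J hJ
        by_contra hh
        have := hsupp c J hc hh
        have hmem : z 0 ∈ J ∩ (range (cols' + 1 + 0)).image z :=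
          mem_inter.2 ⟨hJ, mem_image.2 ⟨0, by simp, rfl⟩⟩
        have := card_pos.2 ⟨_, hmem⟩
        omega
      obtain ⟨q, rfl⟩ : ∃ k, q0 = k + 1 := ⟨q0 - 1, by omega⟩
      have key := ih (cols' + 1) q (fun a => z (a + 1))
        (fun c J => if z 0 ∈ J then 0 else h c (insert (z 0) J)) (by omega)
        (fun a b ha hb hab => by
          have := hz (a + 1) (b + 1) (by omega) (by omega) hab
          omega)
        (fun c J hc hh => by
          by_cases hJ : z 0 ∈ J
          · simp [hJ] at hh
          · simp only [hJ, if_false] at hh
            have h2 := hsupp c _ hc hh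
            have hsub : insert (z 0) (J ∩ (range (cols' + 1 + q)).image (fun a => z (a + 1))) ⊆
                insert (z 0) J ∩ (range (cols' + 1 + (q + 1))).image z := by
              intro x hx
              rcases mem_insert.1 hx with rfl | hx
              · exact mem_inter.2 ⟨mem_insert_self _ _, mem_image.2 ⟨0, by simp, rfl⟩⟩
              · obtain ⟨hx1, hx2⟩ := mem_inter.1 hx
                obtain ⟨a, ha, rfl⟩ := mem_image.1 hx2
                refine mem_inter.2 ⟨mem_insert_of_mem hx1, mem_image.2 ⟨a + 1, ?_, rfl⟩⟩
                simp at ha ⊢; omega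
            have h3 := card_le_card hsub
            rw [card_insert_of_notMem (fun hx => hJ (mem_inter.1 hx).1)] at h3
            omega)
        (fun i hi J' => by
          by_cases hJ : z 0 ∈ J'
          · refine sum_eq_zero fun c hc => ?_
            have hc' := mem_range.1 hc
            have : z 0 ∈ J'.erase (z (c + i + 1)) :=
              mem_erase.2 ⟨(hne (c + i) (by omega)).symm, hJ⟩
            simp [this]
          · have h2 := heq (i + 1) (by omega) (insert (z 0) J')
            refine Eq.trans (sum_congr rfl fun c hc => ?_) h2
            have hc' := mem_range.1 hc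
            have hn := hne (c + i) (by omega)
            have e1 : c + (i + 1) = c + i + 1 := by omega
            have h3 : z 0 ∉ J'.erase (z (c + i + 1)) := fun hx => hJ (mem_of_mem_erase hx)
            simp only [e1, mem_insert, hn, false_or, h3, if_false]
            rw [erase_insert_of_ne hn.symm])
      intro c hc J hJ
      have := key c hc (J.erase (z 0))
      simpa [insert_erase hJ] using this
    -- step 2
    have h2 : ∀ J, h 0 J = 0 := by
      intro J
      by_cases hJ : z 0 ∈ J
      · exact h1 0 (by omega) J hJ
      have h3 := heq 0 (by omega) (insert (z 0) J)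
      rw [sum_range_succ'] at h3
      rw [sum_eq_zero] at h3
      · simpa [erase_insert hJ] using h3
      · intro c hc
        have hc' := mem_range.1 hc
        have hn := hne c (by omega)
        have : z 0 ∈ (insert (z 0) J).erase (z (c + 1 + 0)) :=
          mem_erase.2 ⟨hn.symm, mem_insert_self _ _⟩
        rw [h1 (c + 1) (by omega) _ this]
        simp
    -- step 3
    have key := ih cols' q0 (fun a => z (a + 1)) (fun c J => h (c + 1) J) (by omega)
      (fun a b ha hb hab => by
        have := hz (a + 1) (b + 1) (by omega) (by omega) hab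
        omega)
      (fun c J hc hh => by
        refine le_trans (card_le_card ?_) (hsupp (c + 1) J (by omega) hh)
        intro x hx
        obtain ⟨hx1, hx2⟩ := mem_inter.1 hx
        obtain ⟨a, ha, rfl⟩ := mem_image.1 hx2
        refine mem_inter.2 ⟨hx1, mem_image.2 ⟨a + 1, ?_, rfl⟩⟩
        simp at ha ⊢; omega)
      (fun i hi J' => by
        have h3 := heq i hi J'
        rw [sum_range_succ'] at h3
        simp only [h2, ite_self, add_zero] at h3
        refine Eq.trans (sum_congr rfl fun c _ => ?_) h3
        have e1 : c + 1 + i = c + i + 1 := by omega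
        simp only [e1])
    intro c hc J
    rcases c with _ | c
    · exact h2 J
    · exact key c (by omega) J

end Vale.Agent.P346
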