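import Mathlib

namespace Vale.Agent.P346

open Finset

variable {α : Type*} [Fintype α] [DecidableEq α]

theorem count_one (q : ℕ) (a : α) :
    (((powersetCard q (univ : Finset α)).filter (fun J => a ∈ J)).card : ℝ) * Fintype.card α
      = q * (Fintype.card α).choose q := by
  rcases q with _ | q
  · simp
  have h := card_filter_powersetCard_subset ({a} : Finset α) univ (q + 1) (subset_univ _) (by simp)
  simp only [singleton_subset_iff, card_singleton, card_univ, Nat.add_sub_cancel] at h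
  rw [h]
  obtain ⟨n, hn⟩ : ∃ n, Fintype.card α = n + 1 :=
    ⟨Fintype.card α - 1, by have := Fintype.card_pos_iff.2 ⟨a⟩; omega⟩
  rw [hn, Nat.add_sub_cancel]
  have := Nat.add_one_mul_choose_eq n q
  have h2 : ((n + 1 : ℕ) : ℝ) * n.choose q = ((n + 1).choose (q + 1) : ℝ) * (q + 1 : ℕ) := by
    exact_mod_cast this
  linarith

theorem count_two (q : ℕ) (a b : α) (hab : a ≠ b) :
    (((powersetCard q (univ : Finset α)).filter (fun J => a ∈ J ∧ b ∈ J)).card : ℝ)
      * (Fintype.card α : ℝ) ^ 2 ≤ (q : ℝ) ^ 2 * (Fintype.card α).choose q := by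
  by_cases hq : q < 2
  · have : (powersetCard q (univ : Finset α)).filter (fun J => a ∈ J ∧ b ∈ J) = ∅ := by
      refine filter_eq_empty_iff.2 fun J hJ h => ?_
      have h1 := (mem_powersetCard.1 hJ).2
      have h2 : ({a, b} : Finset α) ⊆ J := by
        intro x hx; simp at hx; rcases hx with rfl | rfl
        · exact h.1
        · exact h.2
      have h3 := card_le_card h2
      rw [card_pair hab] at h3
      omega
    rw [this]; simp; positivity
  obtain ⟨q, rfl⟩ : ∃ k, q = k + 2 := ⟨q - 2, by omega⟩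
  have h := card_filter_powersetCard_subset ({a, b} : Finset α) univ (q + 2) (subset_univ _)
    (by rw [card_pair hab]; omega)
  simp only [insert_subset_iff, singleton_subset_iff, card_pair hab, card_univ,
    Nat.add_sub_cancel] at h
  rw [h]
  obtain ⟨n, hn⟩ : ∃ n, Fintype.card α = n + 2 :=
    ⟨Fintype.card α - 2, by
      have := card_le_univ ({a, b} : Finset α); rw [card_pair hab] at this; omega⟩
  rw [hn, Nat.add_sub_cancel]
  by_cases hqn : n < q
  · rw [Nat.choose_eq_zero_of_lt hqn]; simp; positivity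
  have hqn' : (q : ℝ) ≤ n := by exact_mod_cast not_lt.1 hqn
  have h1 : ((n + 1 : ℕ) : ℝ) * n.choose q = ((n + 1).choose (q + 1) : ℝ) * (q + 1 : ℕ) := by
    exact_mod_cast Nat.add_one_mul_choose_eq n q
  have h2 : ((n + 1 + 1 : ℕ) : ℝ) * (n + 1).choose (q + 1)
      = ((n + 1 + 1).choose (q + 1 + 1) : ℝ) * (q + 1 + 1 : ℕ) := by
    exact_mod_cast Nat.add_one_mul_choose_eq (n + 1) (q + 1)
  push_cast at h1 h2 ⊢
  have e : (n + 1 + 1).choose (q + 1 + 1) = (n + 2).choose (q + 2) := rfl
  rw [e] at h2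
  set A : ℝ := (n.choose q : ℝ)
  set B : ℝ := ((n + 1).choose (q + 1) : ℝ)
  set Cc : ℝ := ((n + 2).choose (q + 2) : ℝ)
  have hC : 0 ≤ Cc := by positivity
  have hn0 : (0 : ℝ) ≤ n := by positivity
  have hq0 : (0 : ℝ) ≤ q := by positivity
  have h3 : ((n : ℝ) + 2) * (n + 1) * A = Cc * (q + 2) * (q + 1) := by
    calc ((n : ℝ) + 2) * (n + 1) * A = (n + 2) * ((n + 1) * A) := by ring
      _ = (n + 2) * (B * (q + 1)) := by rw [h1]
      _ = ((n + 1 + 1) * B) * (q + 1) := by ring
      _ = Cc * (q + 2) * (q + 1) := by rw [h2]; ring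
  have hpos : (0 : ℝ) < n + 1 := by positivity
  refine le_of_mul_le_mul_left ?_ hpos
  have h4 : ((n : ℝ) + 1) * (A * (n + 2) ^ 2) = Cc * (q + 2) * ((q + 1) * (n + 2)) := by
    calc ((n : ℝ) + 1) * (A * (n + 2) ^ 2) = ((n + 2) * (n + 1) * A) * (n + 2) := by ring
      _ = _ := by rw [h3]; ring
  rw [h4]
  have h5 : ((q : ℝ) + 1) * (n + 2) ≤ (q + 2) * (n + 1) := by nlinarith
  calc Cc * (q + 2) * ((q + 1) * (n + 2)) ≤ Cc * (q + 2) * ((q + 2) * (n + 1)) := by gcongr
    _ = _ := by ring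

theorem hyper_var (q : ℕ) (S : Finset α) (hN : 0 < Fintype.card α) :
    ∑ J ∈ powersetCard q (univ : Finset α),
        (((J ∩ S).card : ℝ) - S.card * (q / Fintype.card α)) ^ 2
      ≤ (Fintype.card α).choose q * S.card * ((q / Fintype.card α) * (1 - q / Fintype.card α)) := by
  set N : ℝ := (Fintype.card α : ℝ) with hNdef
  set Cc : ℝ := ((Fintype.card α).choose q : ℝ) with hC
  set p : ℝ := q / N with hp
  have hN' : 0 < N := by rw [hNdef]; exact_mod_cast hN
  have hX : ∀ J : Finset α, ((J ∩ S).card : ℝ) = ∑ a ∈ S, if a ∈ J then (1 : ℝ) else 0 := by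
    intro J
    rw [sum_boole, inter_comm, filter_mem_eq_inter]
  have h1 : ∀ a : α, ∑ J ∈ powersetCard q (univ : Finset α), (if a ∈ J then (1 : ℝ) else 0)
      = p * Cc := by
    intro a
    rw [sum_boole]
    have := count_one q a
    rw [hp]; field_simp; linarith
  have h2 : ∀ a b : α, a ≠ b → ∑ J ∈ powersetCard q (univ : Finset α),
      (if a ∈ J then (1 : ℝ) else 0) * (if b ∈ J then (1 : ℝ) else 0) ≤ p ^ 2 * Cc := by
    intro a b hab
    have e : ∀ J : Finset α, (if a ∈ J then (1 : ℝ) else 0) * (if b ∈ J then (1 : ℝ) else 0)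
        = if a ∈ J ∧ b ∈ J then (1 : ℝ) else 0 := by
      intro J; by_cases ha : a ∈ J <;> by_cases hb : b ∈ J <;> simp [ha, hb]
    simp only [e]
    rw [sum_boole]
    have := count_two q a b hab
    rw [hp, div_pow, div_mul_eq_mul_div, le_div_iff₀ (by positivity)]
    exact this
  have hs1 : ∑ J ∈ powersetCard q (univ : Finset α), ((J ∩ S).card : ℝ) = S.card * (p * Cc) := by
    simp only [hX]
    rw [sum_comm]
    simp only [h1]; simp
  have hs2 : ∑ J ∈ powersetCard q (univ : Finset α), ((J ∩ S).card : ℝ) ^ 2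
      ≤ S.card * (p * Cc + (S.card - 1) * (p ^ 2 * Cc)) := by
    simp only [hX, sq, sum_mul_sum]
    rw [sum_comm]
    rw [← nsmul_eq_mul]
    refine sum_le_card_nsmul _ _ _ fun a ha => ?_
    rw [sum_comm, ← add_sum_erase _ _ ha]
    refine add_le_add ?_ ?_
    · rw [← h1 a]
      refine le_of_eq (sum_congr rfl fun J _ => ?_)
      by_cases h : a ∈ J <;> simp [h]
    · have := sum_le_card_nsmul (S.erase a) (fun b => ∑ J ∈ powersetCard q (univ : Finset α),
        (if a ∈ J then (1 : ℝ) else 0) * (if b ∈ J then (1 : ℝ) else 0)) (p ^ 2 * Cc)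
        (fun b hb => h2 a b (ne_of_mem_erase hb).symm)
      rw [card_erase_of_mem ha, nsmul_eq_mul, Nat.cast_sub (card_pos.2 ⟨a, ha⟩)] at this
      simpa [sq] using this
  have hcard : ((powersetCard q (univ : Finset α)).card : ℝ) = Cc := by
    rw [card_powersetCard, card_univ]
  have e : ∑ J ∈ powersetCard q (univ : Finset α), (((J ∩ S).card : ℝ) - S.card * p) ^ 2
      = ∑ J ∈ powersetCard q (univ : Finset α), ((J ∩ S).card : ℝ) ^ 2
        - 2 * (S.card * p) * ∑ J ∈ powersetCard q (univ : Finset α), ((J ∩ S).card : ℝ)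
        + Cc * (S.card * p) ^ 2 := by
    have e0 : Cc * (S.card * p) ^ 2
        = ∑ J ∈ powersetCard q (univ : Finset α), ((S.card : ℝ) * p) ^ 2 := by
      rw [sum_const, nsmul_eq_mul, hcard]
    rw [mul_sum, ← sum_sub_distrib, e0, ← sum_add_distrib]
    refine sum_congr rfl fun J _ => by ring
  rw [e, hs1]
  nlinarith [hs2]

theorem hyper_tail (q : ℕ) (S : Finset α) (hN : 0 < Fintype.card α) (k : ℕ) (τ : ℝ) (hτ : 0 ≤ τ)
    (hk : S.card * ((q : ℝ) / Fintype.card α) + τ ≤ k) :
    (((powersetCard q (univ : Finset α)).filter (fun J => k ≤ (J ∩ S).card)).card : ℝ) * τ ^ 2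
      ≤ (Fintype.card α).choose q * S.card * ((q / Fintype.card α) * (1 - q / Fintype.card α)) := by
  refine le_trans ?_ (hyper_var q S hN)
  rw [← nsmul_eq_mul]
  refine le_trans (card_nsmul_le_sum _ (fun J => (((J ∩ S).card : ℝ) -
    S.card * (q / Fintype.card α)) ^ 2) _ fun J hJ => ?_) ?_
  · have h1 : (k : ℝ) ≤ (J ∩ S).card := by exact_mod_cast (mem_filter.1 hJ).2
    exact pow_le_pow_left₀ hτ (by linarith) 2
  · exact sum_le_sum_of_subset_of_nonneg (filter_subset _ _) fun _ _ _ => sq_nonneg _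

end Vale.Agent.P346
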