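import Mathlib

namespace Vale.Agent.P346

open Finset Module

theorem exists_rows {K m n : Type*} [Field K] [Fintype m] [Fintype n] (B : Matrix m n K) :
    ∃ β : Fin B.rank → m, LinearIndependent K (B.submatrix β id).row := by
  classical
  obtain ⟨κ, a, ha, hsp, hli⟩ := exists_linearIndependent' K B.row
  have : Finite κ := Finite.of_injective a ha
  have := Fintype.ofFinite κ
  have hcard : Fintype.card κ = B.rank := by
    rw [B.rank_eq_finrank_span_row, ← hsp, linearIndependent_iff_card_eq_finrank_span.mp hli,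
      Set.finrank]
  let e : Fin B.rank ≃ κ := (Fintype.equivFinOfCardEq hcard).symm
  exact ⟨a ∘ e, hli.comp e e.injective⟩

theorem exists_minor {K m n : Type*} [Field K] [Fintype m] [Fintype n] (B : Matrix m n K) :
    ∃ (β : Fin B.rank → m) (α : Fin B.rank → n), (B.submatrix β α).det ≠ 0 := by
  classical
  obtain ⟨β, hβ⟩ := exists_rows B
  have h1 : (B.submatrix β id).transpose.rank = B.rank := by
    rw [Matrix.rank_transpose, hβ.rank_matrix, Fintype.card_fin]
  obtain ⟨α, hα⟩ := exists_rows (B.submatrix β id).transpose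
  let e : Fin B.rank ≃ Fin (B.submatrix β id).transpose.rank := finCongr h1.symm
  refine ⟨β, α ∘ e, ?_⟩
  have h2 : LinearIndependent K (B.submatrix β (α ∘ e)).col := hα.comp e e.injective
  rw [Matrix.linearIndependent_cols_iff_isUnit, Matrix.isUnit_iff_isUnit_det] at h2
  exact h2.ne_zero

theorem finrank_le_of_joint {K U V V' ι : Type*} [Field K] [AddCommGroup U] [Module K U]
    [AddCommGroup V] [Module K V] [AddCommGroup V'] [Module K V'] [Fintype ι]
    [FiniteDimensional K V] [FiniteDimensional K V']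
    (φ : ι → U →ₗ[K] V) (Ψ : U →ₗ[K] V')
    (h : ∀ u, (∀ i, φ i u = 0) → Ψ u = 0 → u = 0) :
    finrank K U ≤ ∑ i, finrank K (LinearMap.range (φ i)) + finrank K V' := by
  let Θ : U →ₗ[K] (∀ i, LinearMap.range (φ i)) × V' :=
    (LinearMap.pi fun i => (φ i).rangeRestrict).prod Ψ
  have hΘ : Function.Injective Θ := by
    rw [injective_iff_map_eq_zero]
    intro u hu
    refine h u (fun i => ?_) (congrArg Prod.snd hu)
    have := congrFun (congrArg Prod.fst hu) i
    exact congrArg Subtype.val this
  have := LinearMap.finrank_le_finrank_of_injective hΘ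
  rwa [finrank_prod, finrank_pi_fintype] at this

theorem rank_add_le' {K m n : Type*} [Field K] [Fintype m] [Fintype n] (A B : Matrix m n K) :
    (A + B).rank ≤ A.rank + B.rank := by
  unfold Matrix.rank
  rw [Matrix.mulVecLin_add]
  refine le_trans (Submodule.finrank_mono ?_) (Submodule.finrank_add_le_finrank_add_finrank _ _)
  rintro _ ⟨x, rfl⟩
  exact Submodule.add_mem_sup ⟨x, rfl⟩ ⟨x, rfl⟩

theorem rank_blockDiag {K o : Type*} [Field K] [Fintype o] [DecidableEq o] (r : o → ℕ)
    (B : ∀ i, Matrix (Fin (r i)) (Fin (r i)) K) (hB : ∀ i, (B i).det ≠ 0) :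
    (Matrix.blockDiagonal' B).rank = ∑ i, r i := by
  have h : Matrix.blockDiagonal' B * Matrix.blockDiagonal' (fun i => (B i)⁻¹) = 1 := by
    rw [← Matrix.blockDiagonal'_mul, ← Matrix.blockDiagonal'_one]
    congr 1
    funext i
    exact Matrix.mul_nonsing_inv _ (isUnit_iff_ne_zero.2 (hB i))
  rw [Matrix.rank_of_isUnit _ (IsUnit.of_mul_eq_one _ h)]
  simp

end Vale.Agent.P346
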