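import Vale.Agent.P346.Hankel
import Vale.Agent.P346.Hyper

namespace Vale.Agent.P346

open Finset

abbrev Lay (N w : ℕ) (K : Type*) := Fin N → Matrix (Fin w) (Fin w) K

/-- One layer, as a matrix valued kernel on pairs of subsets. -/
def stepM {N w : ℕ} {K : Type*} [CommRing K] (c : Lay N w K) (J' J : Finset (Fin N)) :
    Matrix (Fin w) (Fin w) K :=
  ∑ a ∈ J', if J = J'.erase a then c a else 0

def qpart (N t0 q v : ℕ) : ℕ := min q (v % (N - q) * (q + 1) / (N - q) + 1 + t0)

def vnext (N t0 q v : ℕ) : ℕ :=
  if q < N then v / (N - q) * (q + 1) + qpart N t0 q v + 1 else 0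

noncomputable def badb (N t0 q v : ℕ) : ℝ :=
  if q < N then (N.choose q : ℝ) * N ^ 2 / t0 ^ 2 else v

theorem sum_stepM {N w : ℕ} {K : Type*} [CommRing K] (c : Lay N w K) (q : ℕ)
    (J' : Finset (Fin N)) (hJ' : J'.card = q + 1) (f : Finset (Fin N) → K) (s t : Fin w) :
    ∑ J ∈ powersetCard q (univ : Finset (Fin N)), f J * stepM c J' J s t
      = ∑ a ∈ J', f (J'.erase a) * c a s t := by
  simp only [stepM, Matrix.sum_apply, mul_sum]
  rw [sum_comm]
  refine sum_congr rfl fun a ha => ?_
  rw [sum_eq_single (J'.erase a)]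
  · simp
  · intro J _ hJ; simp [hJ]
  · intro h
    exact absurd (mem_powersetCard.2 ⟨subset_univ _, by rw [card_erase_of_mem ha]; omega⟩) h

theorem bad_count (N t0 q v : ℕ) (ht0 : 0 < t0) (hq : q < N) (Z : Finset (Fin N))
    (hZ : Z.card ≤ v % (N - q) + qpart N t0 q v) :
    ((v % (N - q) : ℕ) : ℝ) * (((powersetCard q (univ : Finset (Fin N))).filter
      (fun J => qpart N t0 q v + 1 ≤ (J ∩ Z).card)).card : ℝ)
      ≤ (N.choose q : ℝ) * N ^ 2 / t0 ^ 2 := by
  by_cases hqq : qpart N t0 q v = q
  · have : (powersetCard q (univ : Finset (Fin N))).filter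
        (fun J => qpart N t0 q v + 1 ≤ (J ∩ Z).card) = ∅ := by
      refine filter_eq_empty_iff.2 fun J hJ h => ?_
      have h1 := (mem_powersetCard.1 hJ).2
      have h2 := card_le_card (inter_subset_left (s₁ := J) (s₂ := Z))
      omega
    rw [this]; simp; positivity
  obtain ⟨m, rfl⟩ : ∃ m, N = q + m := ⟨N - q, by omega⟩
  have hm : 0 < m := by omega
  have e : q + m - q = m := by omega
  have hq0 : qpart (q + m) t0 q v = v % m * (q + 1) / m + 1 + t0 := by
    unfold qpart at hqq ⊢
    rw [e] at hqq ⊢
    omega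
  rw [e] at hZ ⊢
  set q0 := qpart (q + m) t0 q v with hq0def
  set rem := v % m with hrem
  have hremlt : rem < m := Nat.mod_lt _ hm
  have h1 : rem * (q + 1) + t0 * m ≤ q0 * m := by
    rw [hq0]
    have := Nat.lt_div_mul_add (a := rem * (q + 1)) hm
    nlinarith
  have hNpos : (0 : ℝ) < (q : ℝ) + m := by positivity
  have hmpos : (0 : ℝ) < m := by exact_mod_cast hm
  have ht0' : (0 : ℝ) < t0 := by exact_mod_cast ht0
  have h2 := hyper_tail q Z (by simp; omega) (q0 + 1) (t0 * m / (q + m)) (by positivity) (by
    simp only [Fintype.card_fin]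
    push_cast
    have hZ' : (Z.card : ℝ) ≤ rem + q0 := by exact_mod_cast hZ
    have h1' : (rem : ℝ) * (q + 1) + t0 * m ≤ q0 * m := by exact_mod_cast h1
    have hr0 : (0 : ℝ) ≤ rem := by positivity
    have hq0' : (0 : ℝ) ≤ q := by positivity
    rw [← mul_div_assoc, ← add_div, div_le_iff₀ hNpos]
    nlinarith)
  simp only [Fintype.card_fin] at h2
  push_cast at h2 ⊢
  set B : ℝ := (((powersetCard q (univ : Finset (Fin (q + m)))).filter
      (fun J => q0 + 1 ≤ (J ∩ Z).card)).card : ℝ)
  set Cc : ℝ := ((q + m).choose q : ℝ)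
  have hB : 0 ≤ B := by positivity
  have hC : 0 ≤ Cc := by positivity
  have hZN : (Z.card : ℝ) ≤ q + m := by
    have := card_le_univ Z
    simp at this; exact_mod_cast this
  have e2 : (1 : ℝ) - q / (q + m) = m / (q + m) := by field_simp; ring
  rw [e2] at h2
  have h3 : B * (t0 ^ 2 * m) ≤ Cc * Z.card * q := by
    have h4 : B * (t0 * m / (q + m)) ^ 2 = (B * (t0 ^ 2 * m)) * (m / (q + m) ^ 2) := by
      field_simp
    have h5 : Cc * Z.card * (q / (q + m) * (m / (q + m))) = (Cc * Z.card * q) * (m / (q + m) ^ 2) := by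
      field_simp
    rw [h4, h5] at h2
    exact le_of_mul_le_mul_right h2 (by positivity)
  have hremle : (rem : ℝ) ≤ m := by exact_mod_cast hremlt.le
  rw [le_div_iff₀ (by positivity)]
  calc (rem : ℝ) * B * t0 ^ 2 ≤ m * B * t0 ^ 2 := by gcongr
    _ = B * (t0 ^ 2 * m) := by ring
    _ ≤ Cc * Z.card * q := h3
    _ ≤ Cc * (q + m) * (q + m) := by gcongr; linarith
    _ = _ := by ring

theorem local_step {K : Type*} [CommRing K] (N w t0 q v : ℕ) (ht0 : 0 < t0) (hq : q ≤ N)
    (hv : v ≤ w) (hv' : vnext N t0 q v ≤ w) :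
    ∃ (c : Lay N w K) (bad : Finset (Fin w × Finset (Fin N))),
      (bad.card : ℝ) ≤ badb N t0 q v ∧
      (∀ a s t, vnext N t0 q v ≤ t.val → c a s t = 0) ∧
      ∀ h : Fin w → Finset (Fin N) → K, (∀ s J, h s J ≠ 0 → s.val < v ∧ J.card = q) →
        (∀ x ∈ bad, h x.1 x.2 = 0) →
        (∀ t J', J'.card = q + 1 →
          ∑ s, ∑ J ∈ powersetCard q (univ : Finset (Fin N)), h s J * stepM c J' J s t = 0) →
        ∀ s J, h s J = 0 := by
  rcases hq.eq_or_lt with rfl | hq
  · refine ⟨0, (univ.filter (fun s : Fin w => s.val < v)) ×ˢ {univ}, ?_, by simp, ?_⟩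
    · simp only [badb, lt_irrefl, if_false, card_product, card_singleton, mul_one]
      have : (univ.filter (fun s : Fin w => s.val < v)).card ≤ (range v).card :=
        card_le_card_of_injOn (fun s => s.val) (fun s hs => by simpa using hs)
          (fun a _ b _ hab => Fin.ext hab)
      simpa using this
    · intro h hs hbad _ s J
      by_contra hh
      obtain ⟨h1, h2⟩ := hs s J hh
      have : J = univ := (card_eq_iff_eq_univ J).1 (by simpa using h2)
      exact hh (hbad (s, J) (by simp [h1, this]))
  have hN : 0 < N := by omega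
  set m := N - q with hm
  have hmpos : 0 < m := by omega
  set r := v / m with hr
  set rem := v % m with hrem
  set q0 := qpart N t0 q v with hq0
  have hq0le : q0 ≤ q := min_le_left _ _
  have hremlt : rem < m := Nat.mod_lt _ hmpos
  have hvn : vnext N t0 q v = r * (q + 1) + q0 + 1 := by simp [vnext, hq, hr, hq0, hm]
  have hvdm : r * m + rem = v := by rw [hr, hrem, mul_comm]; exact Nat.div_add_mod v m
  let z : ℕ → Fin N := fun i => ⟨i % N, Nat.mod_lt _ hN⟩
  let Z : Finset (Fin N) := (range (rem + q0)).image z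
  refine ⟨fun a => Matrix.of fun s t => if t.val < vnext N t0 q v ∧ t.val / (q + 1) = s.val / m ∧
      a.val = s.val % m + t.val % (q + 1) then 1 else 0,
    (univ.filter (fun s : Fin w => s.val < v ∧ s.val / m = r)) ×ˢ
      ((powersetCard q (univ : Finset (Fin N))).filter (fun J => q0 + 1 ≤ (J ∩ Z).card)),
    ?_, ?_, ?_⟩
  · simp only [badb, hq, if_true, card_product]
    push_cast
    refine le_trans ?_ (bad_count N t0 q v ht0 hq Z (by
      refine le_trans card_image_le (by simp [hrem, hq0, hm])))
    have : (univ.filter (fun s : Fin w => s.val < v ∧ s.val / m = r)).card ≤ (range rem).card := by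
      refine card_le_card_of_injOn (fun s => s.val % m) (fun s hs => ?_) (fun a ha b hb hab => ?_)
      · simp only [coe_filter, mem_univ, true_and, Set.mem_ofPred_eq] at hs
        have := Nat.div_add_mod s.val m
        rw [hs.2] at this
        simp only [coe_range, Set.mem_Iio]
        nlinarith [hs.1]
      · simp only [coe_filter, mem_univ, true_and, Set.mem_ofPred_eq] at ha hb
        have h1 := Nat.div_add_mod a.val m
        have h2 := Nat.div_add_mod b.val m
        rw [ha.2] at h1; rw [hb.2] at h2
        simp only at hab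
        exact Fin.ext (by omega)
    rw [card_range] at this
    gcongr
  · intro a s t ht
    simp [not_lt.2 ht]
  intro h hs hbad heq s0 J0
  by_cases hs0 : ¬ s0.val < v
  · by_contra hh; exact hs0 (hs s0 J0 hh).1
  push Not at hs0
  set b := s0.val / m with hb
  have hbr : b ≤ r := Nat.div_le_div_right hs0.le
  let H : ℕ → Finset (Fin N) → K := fun s J => if hs : s < w then h ⟨s, hs⟩ J else 0
  have hH : ∀ s J, H s J ≠ 0 → s < v ∧ J.card = q := by
    intro s J hh
    by_cases hsw : s < w
    · simp only [H, hsw, dif_pos] at hh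
      exact hs _ _ hh
    · simp [H, hsw] at hh
  obtain ⟨cols, qb, hcols, hqb, hcq, hsv, htv, hsup⟩ : ∃ cols qb, cols ≤ m ∧ qb ≤ q ∧
      (∀ s, s < v → s / m = b → s % m < cols) ∧ b * m + cols ≤ v ∧
      b * (q + 1) + qb < vnext N t0 q v ∧
      (∀ c J, c < cols → H (b * m + c) J ≠ 0 → (J ∩ (range (cols + qb)).image z).card ≤ qb) := by
    rcases hbr.eq_or_lt with hbr | hbr
    · refine ⟨rem, q0, hremlt.le, hq0le, ?_, by rw [hbr]; omega, by rw [hbr]; omega, ?_⟩
      · intro s h1 h2
        have := Nat.div_add_mod s m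
        rw [h2, hbr] at this
        nlinarith
      · intro c J hc hh
        obtain ⟨h1, h2⟩ := hH _ _ hh
        have hsw : b * m + c < w := by omega
        simp only [H, hsw, dif_pos] at hh
        by_contra hcon
        refine hh (hbad (⟨b * m + c, hsw⟩, J) ?_)
        simp only [mem_product, mem_filter, mem_univ, true_and, mem_powersetCard, subset_univ]
        refine ⟨⟨h1, ?_⟩, h2, by simp only [Z]; omega⟩
        rw [← hbr, mul_comm, Nat.mul_add_div hmpos, Nat.div_eq_of_lt (by omega)]; rfl
    · refine ⟨m, q, le_rfl, le_rfl, fun s _ _ => Nat.mod_lt _ hmpos, by nlinarith,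
        by rw [hvn]; nlinarith, ?_⟩
      intro c J hc hh
      obtain ⟨_, h2⟩ := hH _ _ hh
      rw [← h2]
      exact card_le_card inter_subset_left
  have key := hankel (cols + qb) cols qb z (fun c J => H (b * m + c) J) rfl
    (fun a a' ha ha' hab => by
      have := congrArg Fin.val hab
      simp only [z] at this
      rwa [Nat.mod_eq_of_lt (by omega), Nat.mod_eq_of_lt (by omega)] at this)
    hsup
    (fun i hi J' => by
      by_cases hJ' : J'.card = q + 1
      swap
      · refine sum_eq_zero fun c _ => ?_
        split_ifs with hz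
        · by_contra hh
          have h2 := (hH _ _ hh).2
          rw [card_erase_of_mem hz] at h2
          have := card_pos.2 ⟨_, hz⟩
          omega
        · rfl
      have htw : b * (q + 1) + i < w := by omega
      have h1 := heq ⟨b * (q + 1) + i, htw⟩ J' hJ'
      simp only [sum_stepM _ q J' hJ', Matrix.of_apply] at h1
      have e1 : (b * (q + 1) + i) / (q + 1) = b := by
        rw [mul_comm, Nat.mul_add_div (by omega), Nat.div_eq_of_lt (by omega)]; rfl
      have e2 : (b * (q + 1) + i) % (q + 1) = i := by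
        rw [mul_comm, Nat.mul_add_mod, Nat.mod_eq_of_lt (by omega)]
      have e3 : b * (q + 1) + i < vnext N t0 q v := by omega
      simp only [e1, e2, e3, true_and] at h1
      let G : ℕ → K := fun s => if b = s / m then
        (if z (s % m + i) ∈ J' then H s (J'.erase (z (s % m + i))) else 0) else 0
      have h2 : ∀ s : Fin w, ∑ a ∈ J', h s (J'.erase a) *
          (if b = s.val / m ∧ a.val = s.val % m + i then (1 : K) else 0) = G s.val := by
        intro s
        have hlt : s.val % m + i < N := by have := Nat.mod_lt s.val hmpos; omega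
        have hiff : ∀ a : Fin N, a.val = s.val % m + i ↔ a = z (s.val % m + i) := by
          intro a
          rw [Fin.ext_iff]
          simp only [z, Nat.mod_eq_of_lt hlt]
        by_cases hbs : b = s.val / m
        · simp only [G, hbs, true_and, if_true, hiff, mul_ite, mul_one, mul_zero, sum_ite_eq', H,
            s.isLt, dif_pos]
        · simp [G, hbs]
      simp only [h2] at h1
      rw [Fin.sum_univ_eq_sum_range G w] at h1
      refine Eq.trans ?_ h1
      have h3 : ∑ s ∈ (range cols).image (fun c => b * m + c), G s = ∑ s ∈ range w, G s := by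
        refine sum_subset (fun s hs => ?_) (fun s _ hs => ?_)
        · obtain ⟨c, hc, rfl⟩ := mem_image.1 hs
          simp at hc ⊢; omega
        · simp only [G]
          split_ifs with h4 h5
          · by_contra hh
            have h6 := (hH _ _ hh).1
            refine hs (mem_image.2 ⟨s % m, mem_range.2 (hcq s h6 h4.symm), ?_⟩)
            rw [h4, mul_comm]; exact Nat.div_add_mod s m
          · rfl
          · rfl
      rw [← h3, sum_image (fun a _ a' _ hab => by simpa using hab)]
      refine sum_congr rfl fun c hc => ?_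
      have hc' := mem_range.1 hc
      have e4 : (b * m + c) / m = b := by
        rw [mul_comm, Nat.mul_add_div hmpos, Nat.div_eq_of_lt (by omega)]; rfl
      have e5 : (b * m + c) % m = c := by
        rw [mul_comm, Nat.mul_add_mod, Nat.mod_eq_of_lt (by omega)]
      simp only [G, e4, e5, if_true])
  have h7 := key (s0.val % m) (hcq _ hs0 rfl) J0
  have e6 : b * m + s0.val % m = s0.val := by rw [hb, mul_comm]; exact Nat.div_add_mod _ _
  simpa [e6, H] using h7

end Vale.Agent.P346
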