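import Vale.Agent.P346.GT
import Vale.Agent.P346.LinAlg

namespace Vale.Agent.P346

open Finset MvPolynomial

universe u

section mu

variable {L Ω : Type*} [Field L] [Fintype Ω] [DecidableEq Ω]

/-- The weighted rank measure. -/
noncomputable def mu (en : Ω → ℤ) (Es : Finset ℤ) (c : ℝ) (etot : ℤ) (M : Matrix Ω Ω L) : ℝ :=
  ∑ e ∈ Es, c ^ (-2 * e) * ((M.submatrix (Subtype.val : {J // en J = e + etot} → Ω)
    (Subtype.val : {J // en J = e} → Ω)).rank : ℝ)

variable (en : Ω → ℤ) (Es : Finset ℤ) (c : ℝ) (etot : ℤ)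

omit [DecidableEq Ω] in
theorem mu_add (hc : 0 < c) (M M' : Matrix Ω Ω L) :
    mu en Es c etot (M + M') ≤ mu en Es c etot M + mu en Es c etot M' := by
  unfold mu
  rw [← sum_add_distrib]
  refine sum_le_sum fun e _ => ?_
  rw [← mul_add]
  refine mul_le_mul_of_nonneg_left ?_ (by positivity)
  exact_mod_cast rank_add_le' _ _

omit [DecidableEq Ω] in
theorem mu_zero : mu en Es c etot (0 : Matrix Ω Ω L) = 0 := by
  simp [mu]

omit [DecidableEq Ω] in
theorem mu_sum {ι : Type*} (hc : 0 < c) (s : Finset ι) (M : ι → Matrix Ω Ω L) :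
    mu en Es c etot (∑ i ∈ s, M i) ≤ ∑ i ∈ s, mu en Es c etot (M i) := by
  classical
  induction s using Finset.induction_on with
  | empty => simp [mu_zero]
  | insert a s ha ih =>
    rw [sum_insert ha, sum_insert ha]
    exact le_trans (mu_add en Es c etot hc _ _) (by linarith)

omit [DecidableEq Ω] in
theorem mu_fact (hc : 0 < c) (P Q : Matrix Ω Ω L) (eP eQ : ℤ)
    (hP : ∀ J' J, P J' J ≠ 0 → en J' = en J + eP) (hQ : ∀ J' J, Q J' J ≠ 0 → en J' = en J + eQ) :
    mu en Es c etot (Q * P) ≤ c ^ (etot + eP - eQ) * ∑ J, c ^ (-2 * en J) := by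
  by_cases he : eP + eQ = etot
  swap
  · have : mu en Es c etot (Q * P) = 0 := by
      refine sum_eq_zero fun e _ => ?_
      have : (Q * P).submatrix (Subtype.val : {J // en J = e + etot} → Ω)
          (Subtype.val : {J // en J = e} → Ω) = 0 := by
        ext J' J
        simp only [Matrix.submatrix_apply, Matrix.mul_apply, Matrix.zero_apply]
        refine sum_eq_zero fun J'' _ => ?_
        by_contra hh
        have h1 := hQ _ _ (left_ne_zero_of_mul hh)
        have h2 := hP _ _ (right_ne_zero_of_mul hh)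
        have h3 := J'.2
        have h4 := J.2
        omega
      rw [this]; simp
    rw [this]; positivity
  have e1 : etot + eP - eQ = 2 * eP := by omega
  rw [e1, mul_sum]
  have h1 : ∀ e ∈ Es, c ^ (-2 * e) * (((Q * P).submatrix (Subtype.val : {J // en J = e + etot} → Ω)
      (Subtype.val : {J // en J = e} → Ω)).rank : ℝ) ≤
      ∑ J, if en J - eP = e then c ^ (2 * eP) * c ^ (-2 * en J) else 0 := by
    intro e _
    have h2 : ((Q * P).submatrix (Subtype.val : {J // en J = e + etot} → Ω)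
        (Subtype.val : {J // en J = e} → Ω)).rank ≤ (univ.filter fun J => en J - eP = e).card := by
      rw [Matrix.submatrix_mul _ _ _ id _ Function.bijective_id]
      refine le_trans (Matrix.rank_mul_le_right _ _)
        (Matrix.rank_le_card_of_support_subset _ _ fun J' hJ' => ?_)
      obtain ⟨J, hJ⟩ := Function.ne_iff.1 hJ'
      have h3 := hP _ _ hJ
      have h4 := J.2
      simp only [id] at h3
      simp only [coe_filter, mem_univ, true_and, Set.mem_ofPred_eq]
      omega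
    rw [← sum_filter]
    have h5 : ∀ J ∈ univ.filter fun J => en J - eP = e,
        c ^ (2 * eP) * c ^ (-2 * en J) = c ^ (-2 * e) := by
      intro J hJ
      have := (mem_filter.1 hJ).2
      rw [← zpow_add₀ hc.ne']
      congr 1; omega
    rw [sum_congr rfl h5, sum_const, nsmul_eq_mul, mul_comm]
    refine mul_le_mul_of_nonneg_right ?_ (by positivity)
    exact_mod_cast h2
  refine le_trans (sum_le_sum h1) ?_
  rw [sum_comm]
  refine sum_le_sum fun J _ => ?_
  rw [sum_ite_eq]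
  split_ifs
  · rfl
  · positivity

end mu

theorem weight_eq {σ : Type*} (u : ℕ) (ε : σ → ℤ) (hε : ∀ x, ε x = u ∨ ε x = -(u + 1))
    (m : σ →₀ ℕ) : ∃ a : ℕ, a ≤ m.degree ∧
      Finsupp.weight ε m = u * (m.degree : ℤ) - (2 * u + 1) * a := by
  induction m using Finsupp.induction_linear with
  | zero => exact ⟨0, by simp, by simp⟩
  | add m m' ih ih' =>
    obtain ⟨a, ha, h⟩ := ih
    obtain ⟨a', ha', h'⟩ := ih'
    refine ⟨a + a', by rw [map_add]; omega, ?_⟩
    rw [map_add, map_add, h, h']; push_cast; ring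
  | single x k =>
    rcases hε x with h | h
    · exact ⟨0, by simp, by simp [Finsupp.weight_single, h, mul_comm]⟩
    · exact ⟨k, by simp, by simp [Finsupp.weight_single, h]; ring⟩

theorem decomp_homog {σ K : Type*} [Field K] (u : ℕ) (ε : σ → ℤ)
    (hε : ∀ x, ε x = u ∨ ε x = -(u + 1)) (G : MvPolynomial σ K) (D : ℕ) (hG : G.IsHomogeneous D) :
    G = ∑ a ∈ range (D + 1), weightedHomogeneousComponent ε (u * (D : ℤ) - (2 * u + 1) * a) G := by
  ext m
  rw [coeff_sum]
  simp only [coeff_weightedHomogeneousComponent]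
  by_cases hm : coeff m G = 0
  · simp [hm]
  have h1 : m.degree = D := by
    have := hG hm
    rwa [Finsupp.degree_eq_weight_one]
  obtain ⟨a, ha, h⟩ := weight_eq u ε hε m
  rw [h1] at ha h
  rw [sum_eq_single a, if_pos h]
  · intro b _ hb
    rw [if_neg]
    rw [h]
    intro h2
    have h3 : (2 * (u : ℤ) + 1) * a = (2 * u + 1) * b := by omega
    have h4 := mul_left_cancel₀ (by positivity) h3
    exact hb (by exact_mod_cast h4.symm)
  · intro h2; exact absurd (mem_range.2 (by omega)) h2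

theorem gsum (u D ρ : ℕ) (c : ℝ) (hc : 1 ≤ c) (hc2 : 2 ≤ c ^ (2 * u + 1))
    (hD : ∀ a : ℕ, (ρ : ℤ) ≤ |u * (D : ℤ) - (2 * u + 1) * a|) :
    ∑ a ∈ range (D + 1), c ^ (-|u * (D : ℤ) - (2 * u + 1) * a|) ≤ 4 / c ^ ρ := by
  obtain ⟨a0, h0, h1⟩ : ∃ a0, (2 * u + 1) * a0 ≤ u * D ∧ u * D < (2 * u + 1) * (a0 + 1) := by
    refine ⟨u * D / (2 * u + 1), Nat.mul_div_le _ _, ?_⟩
    have := Nat.lt_div_mul_add (a := u * D) (show 0 < 2 * u + 1 by omega)
    nlinarith
  have h0' : (2 * (u : ℤ) + 1) * a0 ≤ u * D := by exact_mod_cast h0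
  have h1' : (u : ℤ) * D < (2 * u + 1) * (a0 + 1) := by exact_mod_cast h1
  have hc0 : 0 < c := by linarith
  have key : ∀ (e : ℤ) (j : ℕ), (ρ : ℤ) + (2 * u + 1) * j ≤ e →
      c ^ (-e) ≤ 1 / c ^ ρ * (1 / 2) ^ j := by
    intro e j he
    have h2 : c ^ (-e) ≤ c ^ (-((ρ + (2 * u + 1) * j : ℕ) : ℤ)) :=
      zpow_le_zpow_right₀ hc (by push_cast; omega)
    refine le_trans h2 ?_
    rw [zpow_neg, zpow_natCast, pow_add, pow_mul, mul_inv, one_div, one_div, inv_pow]
    gcongr
  let f : ℕ → ℝ := fun a => if a ≤ a0 then (1 / 2) ^ (a0 - a) else (1 / 2) ^ (a - a0 - 1)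
  have h2 : ∀ a ∈ range (D + 1), c ^ (-|u * (D : ℤ) - (2 * u + 1) * a|) ≤ 1 / c ^ ρ * f a := by
    intro a _
    by_cases ha : a ≤ a0
    · simp only [f, ha, if_true]
      refine key _ _ ?_
      have h3 := hD a0
      rw [abs_of_nonneg (by linarith)] at h3
      refine le_trans ?_ (le_abs_self _)
      rw [Nat.cast_sub ha]
      nlinarith
    · simp only [f, ha, if_false]
      refine key _ _ ?_
      have h3 := hD (a0 + 1)
      push_cast at h3
      rw [abs_of_nonpos (by linarith)] at h3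
      refine le_trans ?_ (neg_le_abs _)
      have : ((a - a0 - 1 : ℕ) : ℤ) = a - a0 - 1 := by omega
      rw [this]
      nlinarith
  refine le_trans (sum_le_sum h2) ?_
  rw [← mul_sum]
  have h3 : ∑ a ∈ range (D + 1), f a ≤ 4 := by
    have h4 : ∑ a ∈ range (D + 1), f a ≤ ∑ a ∈ range (a0 + 1 + D), f a :=
      sum_le_sum_of_subset_of_nonneg (range_subset_range.2 (by omega)) fun a _ _ => by
        simp only [f]; split_ifs <;> positivity
    rw [sum_range_add f (a0 + 1) D] at h4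
    have h5 : ∑ a ∈ range (a0 + 1), f a = ∑ a ∈ range (a0 + 1), (1 / 2 : ℝ) ^ a := by
      rw [← sum_range_reflect]
      refine sum_congr rfl fun a ha => ?_
      have := mem_range.1 ha
      simp only [f]
      rw [if_pos (by omega)]
      congr 1; omega
    have h6 : ∑ a ∈ range D, f (a0 + 1 + a) = ∑ a ∈ range D, (1 / 2 : ℝ) ^ a := by
      refine sum_congr rfl fun a _ => ?_
      simp only [f]
      rw [if_neg (by omega)]
      congr 1; omega
    rw [h5, h6] at h4
    linarith [sum_geometric_two_le (a0 + 1), sum_geometric_two_le D]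
  calc 1 / c ^ ρ * ∑ a ∈ range (D + 1), f a ≤ 1 / c ^ ρ * 4 := by gcongr
    _ = _ := by ring

section gt

variable {K : Type u} {σ : Type} {L Ω : Type*} [Field K] [Field L] [Fintype Ω] [DecidableEq Ω]
  (en : Ω → ℤ) (Es : Finset ℤ) (c : ℝ) (etot : ℤ) (u : ℕ) (ε : σ → ℤ)
  (R : MvPolynomial σ K →+* Matrix Ω Ω L)

theorem mu_split (hc : 1 ≤ c) (hε : ∀ x, ε x = u ∨ ε x = -(u + 1))
    (G T : MvPolynomial σ K) (D : ℕ) (hG : G.IsHomogeneous D) (B : ℝ)
    (hT : ∀ P Q eP eQ, IsWeightedHomogeneous ε P eP → IsWeightedHomogeneous ε Q eQ →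
      mu en Es c etot (R (P * Q * T)) ≤ c ^ (etot + eP - eQ) * B) :
    ∀ P Q eP eQ, IsWeightedHomogeneous ε P eP → IsWeightedHomogeneous ε Q eQ →
      mu en Es c etot (R (P * Q * (G * T))) ≤ c ^ (etot + eP - eQ) *
        (B * ∑ a ∈ range (D + 1), c ^ (-|u * (D : ℤ) - (2 * u + 1) * a|)) := by
  intro P Q eP eQ hP hQ
  have hc0 : 0 < c := by linarith
  rw [decomp_homog u ε hε G D hG, sum_mul, mul_sum, map_sum, mul_sum, mul_sum]
  refine le_trans (mu_sum en Es c etot hc0 _ _) (sum_le_sum fun a _ => ?_)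
  set e : ℤ := u * (D : ℤ) - (2 * u + 1) * a with he
  have hGe := weightedHomogeneousComponent_isWeightedHomogeneous (w := ε) e G
  set Ge := weightedHomogeneousComponent ε e G
  rcases le_total e 0 with h | h
  · have := hT (P * Ge) Q (eP + e) eQ (hP.mul hGe) hQ
    have e1 : P * Q * (Ge * T) = P * Ge * Q * T := by ring
    rw [e1, abs_of_nonpos h, neg_neg]
    refine le_trans this (le_of_eq ?_)
    rw [show etot + (eP + e) - eQ = (etot + eP - eQ) + e by ring, zpow_add₀ hc0.ne']; ring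
  · have := hT P (Q * Ge) eP (eQ + e) hP (hQ.mul hGe)
    have e1 : P * Q * (Ge * T) = P * (Q * Ge) * T := by ring
    rw [e1, abs_of_nonneg h]
    refine le_trans this (le_of_eq ?_)
    rw [show etot + eP - (eQ + e) = (etot + eP - eQ) + -e by ring, zpow_add₀ hc0.ne']; ring

theorem mu_GT (hc : 1 ≤ c) (hc2 : 2 ≤ c ^ (2 * u + 1)) (hε : ∀ x, ε x = u ∨ ε x = -(u + 1))
    (hR : ∀ P e, IsWeightedHomogeneous ε P e → ∀ J' J, R P J' J ≠ 0 → en J' = en J + e)
    (ρ : ℕ) (t : ℕ) (T : MvPolynomial σ K)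
    (hT : GT (fun D => ∀ a : ℕ, (ρ : ℤ) ≤ |u * (D : ℤ) - (2 * u + 1) * a|) t T) :
    ∀ P Q eP eQ, IsWeightedHomogeneous ε P eP → IsWeightedHomogeneous ε Q eQ →
      mu en Es c etot (R (P * Q * T)) ≤ c ^ (etot + eP - eQ) *
        ((∑ J, c ^ (-2 * en J)) * (4 * (4 / c ^ ρ) ^ t)) := by
  have hc0 : 0 < c := by linarith
  have hZ : 0 ≤ ∑ J, c ^ (-2 * en J) := by positivity
  induction t generalizing T with
  | zero =>
    obtain ⟨D, hD⟩ := hT
    intro P Q eP eQ hP hQ
    have key := mu_split en Es c etot u ε R hc hε T 1 D hD (∑ J, c ^ (-2 * en J))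
      (fun P Q eP eQ hP hQ => by
        rw [mul_one, mul_comm P Q, map_mul]
        exact mu_fact en Es c etot hc0 _ _ eP eQ (hR P eP hP) (hR Q eQ hQ)) P Q eP eQ hP hQ
    rw [mul_one] at key
    refine le_trans key ?_
    have := gsum u D 0 c hc hc2 (fun a => by simp)
    simp only [pow_zero, div_one, mul_one] at this ⊢
    gcongr
  | succ t ih =>
    obtain ⟨G, T', D, hD, hG, hT', rfl⟩ := hT
    intro P Q eP eQ hP hQ
    refine le_trans (mu_split en Es c etot u ε R hc hε G T' D hG _ (ih T' hT') P Q eP eQ hP hQ) ?_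
    have := gsum u D ρ c hc hc2 hD
    calc _ ≤ c ^ (etot + eP - eQ) *
        ((∑ J, c ^ (-2 * en J)) * (4 * (4 / c ^ ρ) ^ t) * (4 / c ^ ρ)) := by gcongr
      _ = _ := by ring

end gt

end Vale.Agent.P346
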