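import Vale.Agent.P346.Expect

namespace Vale.Agent.P346

open Finset

variable {K : Type*} [Field K]

theorem seg_wit (N w t0 T : ℕ) [NeZero w] (hN : 0 < N) (ht0 : 0 < t0) (H Λ E A : ℝ) (hΛ : 0 < Λ)
    (hE : (1 + 3 * Λ / N) ^ (2 * T) ≤ E)
    (hA : (N : ℝ) ^ 2 / t0 ^ 2 + w * (2 * Λ ^ 2 / N ^ 2)
      + H * E * ((1 + 1 / (3 * Λ / N)) * (t0 + 2) ^ 2) / w ≤ A)
    (hw : 4 * H * E * (4 * T * A + 1) ≤ w)
    (xs : List ℝ) (hT : xs.length ≤ T) (h : ℝ) (hl : Lev H Λ xs h) :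
    ∃ r : List ℕ → ℕ, (∀ p : List ℕ, p.length = xs.length → (∀ q ∈ p, q ≤ N) → Wit K N w p (r p)) ∧
      ZZ N xs ≤ 2 * w * Ex N xs (fun p => r p) := by
  have hw0 : 0 < w := Nat.pos_of_ne_zero (NeZero.ne w)
  have hw' : (1 : ℝ) ≤ w := by exact_mod_cast hw0
  have hN' : (0 : ℝ) < N := by exact_mod_cast hN
  by_cases hxs : xs = []
  · subst hxs
    refine ⟨fun _ => 1, fun p hp _ => ?_, ?_⟩
    · rw [List.length_eq_zero_iff.1 hp]; exact wit_nil
    · simp [ZZ, Ex]; linarith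
  obtain ⟨hh1, hhH⟩ := hl.bd
  have hη0 : 0 < 3 * Λ / N := by positivity
  have hE1 : 1 ≤ E := le_trans (one_le_pow₀ (by linarith)) hE
  have hH0 : 0 < H := by linarith
  have hh0 : 0 < h := by linarith
  have hA0 : 0 ≤ A := le_trans (by positivity) hA
  set v : ℕ := ⌊4 * T * h * A⌋₊ + 1 with hv
  have hv1 : 4 * T * h * A ≤ v := by
    rw [hv]; push_cast; exact (Nat.lt_floor_add_one _).le
  have hv2 : (v : ℝ) ≤ h * (4 * T * A + 1) := by
    rw [hv]; push_cast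
    have := Nat.floor_le (show 0 ≤ 4 * T * h * A by positivity)
    nlinarith
  have hTA : 0 ≤ 4 * T * A + 1 := by positivity
  have hvw : v ≤ w := by
    have : (v : ℝ) ≤ w := by
      calc (v : ℝ) ≤ H * (4 * T * A + 1) := le_trans hv2 (by gcongr)
        _ ≤ (4 * E) * (H * (4 * T * A + 1)) := le_mul_of_one_le_left (by positivity) (by linarith)
        _ = 4 * H * E * (4 * T * A + 1) := by ring
        _ ≤ w := hw
    exact_mod_cast this
  have hv0 : 0 < v := by omega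
  have hv0' : (0 : ℝ) < v := by exact_mod_cast hv0
  have hex : ∀ p : List ℕ, ∃ r : ℕ, p.length = xs.length → (∀ q ∈ p, q ≤ N) →
      Wit K N w p r ∧ (v : ℝ) * aP N p - kb N w t0 p v ≤ v * w * r := by
    intro p
    by_cases hp : p.length = xs.length ∧ ∀ q ∈ p, q ≤ N
    · obtain ⟨r, hr⟩ := wit_seg (K := K) (N := N) (w := w) t0 ht0 p (by
        rintro rfl
        exact hxs (List.length_eq_zero_iff.1 hp.1.symm)) hp.2 v hv0 hvw
      exact ⟨r, fun _ _ => hr⟩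
    · exact ⟨0, fun h1 h2 => absurd ⟨h1, h2⟩ hp⟩
  choose r hr using hex
  refine ⟨r, fun p h1 h2 => (hr p h1 h2).1, ?_⟩
  have hZ := ZZ_nonneg N xs hl.nonneg
  have h1 := Ex_mono N xs hl.nonneg (fun p => (v : ℝ) * aP N p + (-1) * kb N w t0 p v)
    (fun p => (v * w) * r p) (fun p h1 h2 => by have := (hr p h1 h2).2; linarith)
  rw [Ex_lin, Ex_smul, Ex_aP] at h1
  have h2 := ex_seg N w t0 T hN hw0 H Λ E A hΛ hE hA xs hT h hl v hvw
  have h3 : xs.length * h * A ≤ v / 4 := by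
    have : (xs.length : ℝ) ≤ T := by exact_mod_cast hT
    have : xs.length * h * A ≤ T * h * A := by gcongr
    linarith
  have h4 : H / h * (1 + 3 * Λ / N) ^ (2 * xs.length) / w * v ^ 2 ≤ v / 4 := by
    have hpowE : (1 + 3 * Λ / N) ^ (2 * xs.length) ≤ E :=
      le_trans (pow_le_pow_right₀ (by linarith) (by omega)) hE
    calc H / h * (1 + 3 * Λ / N) ^ (2 * xs.length) / w * v ^ 2
        = H / h * (1 + 3 * Λ / N) ^ (2 * xs.length) / w * v * v := by ring
      _ ≤ H / h * E / w * (h * (4 * T * A + 1)) * v := by gcongr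
      _ = (4 * H * E * (4 * T * A + 1)) / w * (v / 4) := by field_simp
      _ ≤ 1 * (v / 4) := by
        gcongr
        rw [div_le_one (by linarith)]; exact hw
      _ = v / 4 := one_mul _
  have h5 : Ex N xs (fun p => kb N w t0 p v) ≤ v / 2 * ZZ N xs :=
    le_trans h2 (mul_le_mul_of_nonneg_right (by linarith) hZ)
  refine le_of_mul_le_mul_left ?_ hv0'
  nlinarith

theorem segs_wit (N w t0 T : ℕ) [NeZero w] (hN : 0 < N) (ht0 : 0 < t0) (H Λ E A : ℝ) (hΛ : 0 < Λ)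
    (hE : (1 + 3 * Λ / N) ^ (2 * T) ≤ E)
    (hA : (N : ℝ) ^ 2 / t0 ^ 2 + w * (2 * Λ ^ 2 / N ^ 2)
      + H * E * ((1 + 1 / (3 * Λ / N)) * (t0 + 2) ^ 2) / w ≤ A)
    (hw : 4 * H * E * (4 * T * A + 1) ≤ w) (k : ℕ) :
    ∀ (xs : List ℝ), xs.length ≤ k * T → ∀ h : ℝ, Lev H Λ xs h →
    ∃ r : List ℕ → ℕ, (∀ p : List ℕ, p.length = xs.length → (∀ q ∈ p, q ≤ N) → Wit K N w p (r p)) ∧
      ZZ N xs ≤ (2 * w) ^ k * Ex N xs (fun p => r p) := by
  induction k with
  | zero =>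
    intro xs hxs h _
    have : xs = [] := List.length_eq_zero_iff.1 (by omega)
    subst this
    refine ⟨fun _ => 1, fun p hp _ => ?_, by simp [ZZ, Ex]⟩
    rw [List.length_eq_zero_iff.1 hp]; exact wit_nil
  | succ k ih =>
    intro xs hxs h hl
    obtain ⟨ys, zs, rfl, hys, hzs⟩ : ∃ ys zs : List ℝ, xs = ys ++ zs ∧ ys.length ≤ T ∧
        zs.length ≤ k * T :=
      ⟨xs.take T, xs.drop T, by simp, by simp, by
        rw [List.length_drop]; rw [Nat.succ_mul] at hxs; omega⟩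
    obtain ⟨hl1, hl2⟩ := hl.append
    obtain ⟨r₁, hr₁, hZ₁⟩ := seg_wit (K := K) N w t0 T hN ht0 H Λ E A hΛ hE hA hw ys hys h hl1
    obtain ⟨r₂, hr₂, hZ₂⟩ := ih zs hzs _ hl2
    refine ⟨fun p => r₁ (p.take ys.length) * r₂ (p.drop ys.length), fun p hp hq => ?_, ?_⟩
    · rw [List.length_append] at hp
      have := wit_append (hr₁ (p.take ys.length) (by simp; omega)
        fun q h => hq q (List.mem_of_mem_take h))
        (hr₂ (p.drop ys.length) (by simp; omega) fun q h => hq q (List.mem_of_mem_drop h))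
      rwa [List.take_append_drop] at this
    · push_cast
      rw [Ex_append N ys zs (fun p => r₁ p) (fun p => r₂ p)]
      have e : ZZ N (ys ++ zs) = ZZ N ys * ZZ N zs := by simp [ZZ]
      have hZ1 := ZZ_nonneg N ys hl1.nonneg
      have hZ2 := ZZ_nonneg N zs hl2.nonneg
      rw [e]
      calc ZZ N ys * ZZ N zs ≤ (2 * w * Ex N ys (fun p => r₁ p)) *
            ((2 * w) ^ k * Ex N zs (fun p => r₂ p)) :=
          mul_le_mul hZ₁ hZ₂ hZ2 (le_trans hZ1 hZ₁)
        _ = _ := by ring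

end Vale.Agent.P346
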