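import Vale.Agent.P346.Rep
import Vale.Agent.P346.Segs
import Vale.Agent.P346.Measure

namespace Vale.Agent.P346

open Finset MvPolynomial

theorem exists_ofFn {α : Type*} (l : List α) (n : ℕ) (h : l.length = n) :
    ∃ f : Fin n → α, l = List.ofFn f := by
  subst h
  exact ⟨l.get, (List.ofFn_get l).symm⟩

theorem Ex_ofFn (N n : ℕ) (x : Fin n → ℝ) (k : List ℕ → ℝ) :
    Ex N (List.ofFn x) k
      = ∑ p : Fin n → Fin (N + 1), (∏ i, x i ^ (p i).val) * k (List.ofFn fun i => (p i).val) := by
  induction n generalizing k with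
  | zero => simp [Ex]
  | succ n ih =>
    rw [List.ofFn_succ, Ex, ← (Fin.consEquiv fun _ : Fin (n + 1) => Fin (N + 1)).sum_comp,
      Fintype.sum_prod_type, ← Fin.sum_univ_eq_sum_range
        (fun q => x 0 ^ q * Ex N (List.ofFn fun i => x i.succ) fun ps => k (q :: ps))]
    refine sum_congr rfl fun q _ => ?_
    rw [ih, mul_sum]
    refine sum_congr rfl fun p _ => ?_
    simp [Fin.consEquiv, Fin.prod_univ_succ, List.ofFn_succ, mul_assoc]

theorem zpow_sum' {ι : Type*} (s : Finset ι) (c : ℝ) (hc : 0 < c) (f : ι → ℤ) :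
    c ^ (∑ i ∈ s, f i) = ∏ i ∈ s, c ^ f i := by
  classical
  induction s using Finset.induction_on with
  | empty => simp
  | insert a s ha ih => rw [sum_insert ha, prod_insert ha, zpow_add₀ hc.ne', ih]

theorem wt_eq {n : ℕ} (c : ℝ) (hc : 0 < c) (εL : Fin n → ℤ) (p : Fin n → ℕ) :
    c ^ (-2 * ∑ i, εL i * (p i : ℤ)) = ∏ i, (c ^ (-2 * εL i)) ^ p i := by
  rw [mul_sum, zpow_sum' _ c hc]
  refine prod_congr rfl fun i _ => ?_
  rw [← zpow_natCast, ← zpow_mul, mul_assoc]

theorem Z_eq {n N : ℕ} (c : ℝ) (hc : 0 < c) (εL : Fin n → ℤ) :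
    ∑ J : Fin n → Finset (Fin N), c ^ (-2 * enr εL J)
      = ZZ N (List.ofFn fun i => c ^ (-2 * εL i)) := by
  have h1 : ∀ y : ℝ, (1 + y) ^ N = ∑ S : Finset (Fin N), y ^ S.card := by
    intro y
    have := prod_one_add (f := fun _ : Fin N => y) (univ : Finset (Fin N))
    simpa using this
  simp only [ZZ, List.map_ofFn, List.prod_ofFn, Function.comp, h1, enr, wt_eq c hc]
  rw [Fintype.prod_sum]

section generic

variable (K : Type*) [Field K] (n N w : ℕ)

abbrev GenR := MvPolynomial (Fin n × Fin N × Fin w × Fin w) K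

abbrev GenL := FractionRing (GenR K n N w)

/-- The generic layers. -/
noncomputable def genC : Fin n → Lay N w (GenR K n N w) :=
  fun i a => Matrix.of fun s t => X (i, a, s, t)

noncomputable def genL : Fin n → Lay N w (GenL K n N w) :=
  fun i a => (genC K n N w i a).map (algebraMap (GenR K n N w) (GenL K n N w))

theorem generic [NeZero w] (p : Fin n → ℕ) (r : ℕ) (h : Wit K N w (List.ofFn p) r) :
    ∃ α β : Fin r → (Fin n → Finset (Fin N)), (∀ i j, (α i j).card = p j) ∧
      (∀ i j, (β i j).card = p j + 1) ∧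
      (Matrix.of fun i j => F (List.ofFn (genL K n N w)) (List.ofFn (β i)) (List.ofFn (α j)) 0 0).det
        ≠ 0 := by
  obtain ⟨cs, hl, α, β, ha, hb, -, hd⟩ := h
  obtain ⟨C0, rfl⟩ := exists_ofFn cs n (by simpa using hl)
  have h1 : ∀ i, ∃ f : Fin n → Finset (Fin N), α i = List.ofFn f := fun i =>
    exists_ofFn _ n (by simpa using congrArg List.length (ha i))
  have h2 : ∀ i, ∃ f : Fin n → Finset (Fin N), β i = List.ofFn f := fun i =>
    exists_ofFn _ n (by simpa using congrArg List.length (hb i))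
  choose α' hα using h1
  choose β' hβ using h2
  refine ⟨α', β', fun i j => ?_, fun i j => ?_, ?_⟩
  · have := ha i
    rw [hα, List.map_ofFn, List.ofFn_inj] at this
    exact congrFun this j
  · have := hb i
    rw [hβ, List.map_ofFn, List.map_ofFn, List.ofFn_inj] at this
    exact congrFun this j
  let φ : GenR K n N w →+* K := eval fun x => C0 x.1 x.2.1 x.2.2.1 x.2.2.2
  let M : Matrix (Fin r) (Fin r) (GenR K n N w) := Matrix.of fun i j =>
    F (List.ofFn (genC K n N w)) (List.ofFn (β' i)) (List.ofFn (α' j)) 0 0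
  have e1 : List.ofFn C0 = (List.ofFn (genC K n N w)).map fun c a => (c a).map φ := by
    rw [List.map_ofFn]
    congr 1
    funext i a
    ext s t
    simp [genC, φ]
  have e2 : List.ofFn (genL K n N w) = (List.ofFn (genC K n N w)).map
      fun c a => (c a).map (algebraMap (GenR K n N w) (GenL K n N w)) := by
    rw [List.map_ofFn]; rfl
  have h3 : M.det ≠ 0 := by
    intro h0
    apply hd
    have : (Matrix.of fun i j => F (List.ofFn C0) (β i) (α j) 0 0) = φ.mapMatrix M := by
      ext i j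
      simp only [Matrix.of_apply, e1, F_map, hα, hβ, RingHom.mapMatrix_apply, Matrix.map_apply, M]
    rw [this, ← RingHom.map_det, h0, map_zero]
  have : (Matrix.of fun i j => F (List.ofFn (genL K n N w)) (List.ofFn (β' i))
      (List.ofFn (α' j)) 0 0) = (algebraMap (GenR K n N w) (GenL K n N w)).mapMatrix M := by
    ext i j
    simp only [Matrix.of_apply, e2, F_map, RingHom.mapMatrix_apply, Matrix.map_apply, M]
  rw [this, ← RingHom.map_det]
  exact fun h0 => h3 (IsFractionRing.injective (GenR K n N w) (GenL K n N w) (by simpa using h0))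

end generic

theorem mu_lower {L : Type*} [Field L] {n N w : ℕ} [NeZero w] (Cf : Fin n → Lay N w L)
    (εL : Fin n → ℤ) (c : ℝ) (hc : 0 < c) (r : List ℕ → ℕ)
    (hr : ∀ p : Fin n → Fin (N + 1), ∃ α β : Fin (r (List.ofFn fun i => (p i).val)) →
      (Fin n → Finset (Fin N)), (∀ i j, (α i j).card = p j) ∧ (∀ i j, (β i j).card = p j + 1) ∧
      (Matrix.of fun i j => F (List.ofFn Cf) (List.ofFn (β i)) (List.ofFn (α j)) 0 0).det ≠ 0)
    (M : Matrix (Fin n → Finset (Fin N)) (Fin n → Finset (Fin N)) L)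
    (hM : ∀ J' J, M J' J = F (List.ofFn Cf) (List.ofFn J') (List.ofFn J) 0 0) :
    Ex N (List.ofFn fun i => c ^ (-2 * εL i)) (fun p => r p) ≤
      mu (enr εL) (univ.image fun p : Fin n → Fin (N + 1) => ∑ i, εL i * ((p i).val : ℤ)) c
        (∑ i, εL i) M := by
  classical
  choose α β hα hβ hd using hr
  set enP : (Fin n → Fin (N + 1)) → ℤ := fun p => ∑ i, εL i * ((p i).val : ℤ) with henP
  rw [Ex_ofFn, ← sum_fiberwise_of_maps_to (s := univ) (t := univ.image enP) (g := enP)
    (fun p _ => mem_image_of_mem _ (mem_univ p))]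
  refine sum_le_sum fun e _ => ?_
  have h1 : ∀ p ∈ univ.filter (fun p => enP p = e),
      (∏ i, (c ^ (-2 * εL i)) ^ (p i).val) * (r (List.ofFn fun i => (p i).val) : ℝ)
        = c ^ (-2 * e) * r (List.ofFn fun i => (p i).val) := by
    intro p hp
    rw [← wt_eq c hc εL (fun i => (p i).val), ← (mem_filter.1 hp).2]
  rw [sum_congr rfl h1, ← mul_sum]
  refine mul_le_mul_of_nonneg_left ?_ (by positivity)
  let rr : {p // enP p = e} → ℕ := fun p => r (List.ofFn fun i => (p.1 i).val)
  let colf : (Σ p : {p // enP p = e}, Fin (rr p)) → {J : Fin n → Finset (Fin N) // enr εL J = e} :=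
    fun x => ⟨α x.1.1 x.2, by
      refine Eq.trans ?_ x.1.2
      simp only [enr, henP, hα]⟩
  let rowf : (Σ p : {p // enP p = e}, Fin (rr p)) →
      {J : Fin n → Finset (Fin N) // enr εL J = e + ∑ i, εL i} :=
    fun x => ⟨β x.1.1 x.2, by
      refine Eq.trans ?_ (congrArg (· + ∑ i, εL i) x.1.2)
      simp only [enr, henP, hβ, ← sum_add_distrib]
      refine sum_congr rfl fun i _ => by push_cast; ring⟩
  have h2 := Matrix.rank_submatrix_le (M.submatrix
    (Subtype.val : {J // enr εL J = e + ∑ i, εL i} → _) (Subtype.val : {J // enr εL J = e} → _))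
    rowf colf
  have h3 : (M.submatrix (Subtype.val : {J // enr εL J = e + ∑ i, εL i} → _)
      (Subtype.val : {J // enr εL J = e} → _)).submatrix rowf colf
      = Matrix.blockDiagonal' fun p : {p // enP p = e} => (Matrix.of fun i j : Fin (rr p) =>
        F (List.ofFn Cf) (List.ofFn (β p.1 i)) (List.ofFn (α p.1 j)) 0 0) := by
    ext ⟨p, i⟩ ⟨p', j⟩
    by_cases hp : p = p'
    · subst hp
      rw [Matrix.blockDiagonal'_apply_eq]
      exact hM _ _
    · rw [Matrix.blockDiagonal'_apply_ne _ _ _ hp]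
      change M (β p.1 i) (α p'.1 j) = 0
      rw [hM]
      by_contra hh
      have h4 : F (List.ofFn Cf) (List.ofFn (β p.1 i)) (List.ofFn (α p'.1 j)) ≠ 0 := fun h0 =>
        hh (by rw [h0]; rfl)
      have h5 := F_ne_zero h4
      rw [List.map_ofFn, List.map_ofFn, List.map_ofFn, List.ofFn_inj] at h5
      refine hp (Subtype.ext (funext fun k => Fin.ext ?_))
      have h6 := congrFun h5 k
      simp only [Function.comp, hα, hβ] at h6
      omega
  rw [h3, rank_blockDiag rr _ (fun p => hd p.1)] at h2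
  have h7 : ∑ p ∈ univ.filter (fun p => enP p = e), (r (List.ofFn fun i => (p i).val) : ℝ)
      = ((∑ p, rr p : ℕ) : ℝ) := by
    push_cast
    exact sum_subtype _ (by simp) _
  rw [h7]
  exact_mod_cast h2

end Vale.Agent.P346
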