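import Vale.Agent.P346.Local
import Vale.Agent.P346.LinAlg

namespace Vale.Agent.P346

open Finset Module

section defs

variable {N w : ℕ} {K : Type*} [CommRing K]

/-- The ordered product of the layer kernels. -/
def F : List (Lay N w K) → List (Finset (Fin N)) → List (Finset (Fin N)) →
    Matrix (Fin w) (Fin w) K
  | [], [], [] => 1
  | c :: cs, J' :: J's, J :: Js => stepM c J' J * F cs J's Js
  | _, _, _ => 0

/-- Lists of subsets with prescribed cardinalities. -/
def pat (N : ℕ) : List ℕ → Finset (List (Finset (Fin N)))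
  | [] => {[]}
  | q :: ps => ((powersetCard q (univ : Finset (Fin N))) ×ˢ pat N ps).map
      ⟨fun x => x.1 :: x.2, fun x y h => by
        simp only [List.cons.injEq] at h; exact Prod.ext h.1 h.2⟩

def aP (N : ℕ) (p : List ℕ) : ℕ := (p.map (N.choose ·)).prod

theorem mem_pat (p : List ℕ) (Js : List (Finset (Fin N))) :
    Js ∈ pat N p ↔ Js.map Finset.card = p := by
  induction p generalizing Js with
  | nil => simp [pat]
  | cons q ps ih =>
    rcases Js with _ | ⟨J, Js⟩
    · simp [pat]
    · simp only [pat, mem_map, mem_product, mem_powersetCard, subset_univ, true_and, ih,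
        List.cons.injEq, List.map_cons]
      constructor
      · rintro ⟨x, h1, h2⟩
        have h3 : x.1 :: x.2 = J :: Js := h2
        simp only [List.cons.injEq] at h3
        rw [← h3.1, ← h3.2]; exact h1
      · intro h; exact ⟨(J, Js), h, rfl⟩

theorem card_pat (p : List ℕ) : (pat N p).card = aP N p := by
  induction p with
  | nil => simp [pat, aP]
  | cons q ps ih => simp [pat, aP, ih]

theorem sum_pat_cons {M : Type*} [AddCommMonoid M] (q : ℕ) (ps : List ℕ)
    (f : List (Finset (Fin N)) → M) :
    ∑ Js ∈ pat N (q :: ps), f Js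
      = ∑ J ∈ powersetCard q (univ : Finset (Fin N)), ∑ Js ∈ pat N ps, f (J :: Js) := by
  simp only [pat, sum_map, sum_product]
  rfl

theorem stepM_ne_zero {c : Lay N w K} {J' J : Finset (Fin N)} (h : stepM c J' J ≠ 0) :
    J'.card = J.card + 1 := by
  obtain ⟨a, ha, h1⟩ := exists_ne_zero_of_sum_ne_zero h
  by_cases h2 : J = J'.erase a
  · rw [h2, card_erase_of_mem ha]
    have := card_pos.2 ⟨a, ha⟩
    omega
  · simp [h2] at h1

theorem F_ne_zero {cs : List (Lay N w K)} {J's Js : List (Finset (Fin N))}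
    (h : F cs J's Js ≠ 0) : J's.map Finset.card = (Js.map Finset.card).map (· + 1) := by
  induction cs generalizing J's Js with
  | nil => rcases J's with _ | _ <;> rcases Js with _ | _ <;> simp_all [F]
  | cons c cs ih =>
    rcases J's with _ | ⟨J', J's⟩ <;> rcases Js with _ | ⟨J, Js⟩ <;> simp only [F] at h
    any_goals exact absurd rfl h
    have h1 : stepM c J' J ≠ 0 := fun h0 => h (by rw [h0, zero_mul])
    have h2 : F cs J's Js ≠ 0 := fun h0 => h (by rw [h0, mul_zero])
    simp only [List.map_cons, stepM_ne_zero h1, ih h2]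

theorem F_append (cs₁ cs₂ : List (Lay N w K)) (J₁' J₂' J₁ J₂ : List (Finset (Fin N)))
    (h' : J₁'.length = cs₁.length) (h : J₁.length = cs₁.length) :
    F (cs₁ ++ cs₂) (J₁' ++ J₂') (J₁ ++ J₂) = F cs₁ J₁' J₁ * F cs₂ J₂' J₂ := by
  induction cs₁ generalizing J₁' J₁ with
  | nil =>
    rw [List.length_nil, List.length_eq_zero_iff] at h h'
    subst h h'
    simp [F]
  | cons c cs ih =>
    rcases J₁' with _ | ⟨J', J's⟩
    · simp at h'
    rcases J₁ with _ | ⟨J, Js⟩
    · simp at h
    simp only [List.cons_append, F]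
    rw [ih J's Js (by simpa using h') (by simpa using h), mul_assoc]

theorem F_left (c : Lay N w K) (cs : List (Lay N w K)) (B : Matrix (Fin w) (Fin w) K)
    (J' J : List (Finset (Fin N))) :
    F ((fun a => B * c a) :: cs) J' J = B * F (c :: cs) J' J := by
  rcases J' with _ | ⟨J', J's⟩ <;> rcases J with _ | ⟨J, Js⟩ <;> simp only [F, mul_zero]
  rw [← mul_assoc]
  congr 1
  simp only [stepM, mul_sum]
  exact sum_congr rfl fun a _ => by split_ifs <;> simp

theorem F_right (cs : List (Lay N w K)) (hcs : cs ≠ []) (B : Matrix (Fin w) (Fin w) K) :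
    ∃ cs' : List (Lay N w K), cs'.length = cs.length ∧ ∀ J' J, F cs' J' J = F cs J' J * B := by
  induction cs with
  | nil => exact absurd rfl hcs
  | cons c cs ih =>
    by_cases h : cs = []
    · subst h
      refine ⟨[fun a => c a * B], rfl, fun J' J => ?_⟩
      rcases J' with _ | ⟨J', _ | ⟨_, _⟩⟩ <;> rcases J with _ | ⟨J, _ | ⟨_, _⟩⟩ <;>
        simp only [F, mul_zero, zero_mul, mul_one]
      simp only [stepM, sum_mul]
      exact sum_congr rfl fun a _ => by split_ifs <;> simp
    · obtain ⟨cs', h1, h2⟩ := ih h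
      refine ⟨c :: cs', by simp [h1], fun J' J => ?_⟩
      rcases J' with _ | ⟨J', J's⟩ <;> rcases J with _ | ⟨J, Js⟩ <;>
        simp only [F, zero_mul]
      rw [h2, mul_assoc]

theorem F_map {L : Type*} [CommRing L] (φ : K →+* L) (cs : List (Lay N w K))
    (J' J : List (Finset (Fin N))) :
    F (cs.map fun c a => (c a).map φ) J' J = (F cs J' J).map φ := by
  induction cs generalizing J' J with
  | nil =>
    rcases J' with _ | ⟨J', J's⟩ <;> rcases J with _ | ⟨J, Js⟩ <;> simp [F]
  | cons c cs ih =>
    rcases J' with _ | ⟨J', J's⟩ <;> rcases J with _ | ⟨J, Js⟩ <;>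
      simp only [F, List.map_cons, Matrix.map_zero _ (map_zero φ)]
    rw [ih, Matrix.map_mul]
    congr 1
    ext s t
    simp only [stepM, Matrix.sum_apply, Matrix.map_apply, map_sum]
    exact sum_congr rfl fun a _ => by split_ifs <;> simp

/-- Upper bound for the kernel dimension. -/
noncomputable def kb (N w t0 : ℕ) : List ℕ → ℕ → ℝ
  | [], _ => 0
  | q :: ps, v => if vnext N t0 q v ≤ w then
      badb N t0 q v * aP N ps + N.choose (q + 1) * kb N w t0 ps (vnext N t0 q v)
    else v * (N.choose q * aP N ps)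

/-- One layer applied to the first coordinate. -/
def Gmap (c : Lay N w K) (q : ℕ) (J' : Finset (Fin N)) :
    (Fin w → List (Finset (Fin N)) → K) →ₗ[K] (Fin w → List (Finset (Fin N)) → K) where
  toFun f s' Js := ∑ s, ∑ J ∈ powersetCard q (univ : Finset (Fin N)),
    f s (J :: Js) * stepM c J' J s s'
  map_add' f g := by
    funext s' Js
    simp only [Pi.add_apply, add_mul, sum_add_distrib]
  map_smul' a f := by
    funext s' Js
    simp only [Pi.smul_apply, smul_eq_mul, RingHom.id_apply, mul_sum, mul_assoc]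

/-- Coordinate functional. -/
def coord (s : Fin w) (Js : List (Finset (Fin N))) :
    (Fin w → List (Finset (Fin N)) → K) →ₗ[K] K where
  toFun f := f s Js
  map_add' _ _ := rfl
  map_smul' _ _ := rfl

end defs

theorem defect {K : Type*} [CommRing K] (N w t0 : ℕ) (ht0 : 0 < t0) (p : List ℕ) :
    ∀ v : ℕ, (∀ q ∈ p, q ≤ N) → v ≤ w →
    ∃ cs : List (Lay N w K), cs.length = p.length ∧
      ∃ (D : Type) (_ : Fintype D) (ψ : D → (Fin w → List (Finset (Fin N)) → K) →ₗ[K] K),
        (Fintype.card D : ℝ) ≤ kb N w t0 p v ∧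
        ∀ f : Fin w → List (Finset (Fin N)) → K,
          (∀ s Js, f s Js ≠ 0 → s.val < v ∧ Js ∈ pat N p) →
          (∀ t, ∀ J's ∈ pat N (p.map (· + 1)),
            ∑ s, ∑ Js ∈ pat N p, f s Js * F cs J's Js s t = 0) →
          (∀ δ, ψ δ f = 0) → ∀ s Js, f s Js = 0 := by
  induction p with
  | nil =>
    intro v _ _
    refine ⟨[], rfl, Empty, inferInstance, fun δ => δ.elim, by simp [kb], ?_⟩
    intro f hf heq _ s Js
    by_contra hh
    have h1 := (hf s Js hh).2
    simp only [pat, mem_singleton] at h1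
    subst h1
    have := heq s [] (by simp [pat])
    simp [pat, F, Matrix.one_apply] at this
    exact hh this
  | cons q ps ih =>
    intro v hp hv
    have hq : q ≤ N := hp q (by simp)
    have hps : ∀ q ∈ ps, q ≤ N := fun q' h => hp q' (by simp [h])
    by_cases hv' : vnext N t0 q v ≤ w
    swap
    · refine ⟨List.replicate (q :: ps).length 0, by simp, Fin v × pat N (q :: ps), inferInstance,
        fun δ => coord (Fin.castLE hv δ.1) δ.2.1, ?_, ?_⟩
      · simp [kb, hv', card_pat, aP]
      · intro f hf _ hψ s Js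
        by_contra hh
        obtain ⟨h1, h2⟩ := hf s Js hh
        exact hh (hψ (⟨s.val, h1⟩, ⟨Js, h2⟩))
    obtain ⟨c, bad, hbad, hc, hloc⟩ := local_step (K := K) N w t0 q v ht0 hq hv hv'
    obtain ⟨cs, hlen, D, hD, ψ, hcard, hdef⟩ := ih (vnext N t0 q v) hps hv'
    refine ⟨c :: cs, by simp [hlen],
      (bad × pat N ps) ⊕ (powersetCard (q + 1) (univ : Finset (Fin N)) × D), inferInstance,
      Sum.elim (fun δ => coord δ.1.1.1 (δ.1.1.2 :: δ.2.1))
        (fun δ => (ψ δ.2).comp (Gmap c q δ.1.1)), ?_, ?_⟩
    · simp only [kb, hv', if_true, Fintype.card_sum, Fintype.card_prod, Fintype.card_coe,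
        card_pat, card_powersetCard, card_univ, Fintype.card_fin]
      push_cast
      gcongr
    intro f hf heq hψ
    have hG : ∀ J' : Finset (Fin N), J'.card = q + 1 → ∀ s' Js, Gmap c q J' f s' Js = 0 := by
      intro J' hJ'
      have hJ'' : J' ∈ powersetCard (q + 1) (univ : Finset (Fin N)) :=
        mem_powersetCard.2 ⟨subset_univ _, hJ'⟩
      refine hdef _ (fun s' Js hh => ?_) (fun t J's hJ's => ?_)
        (fun δ => hψ (Sum.inr (⟨J', hJ''⟩, δ)))
      · have hh' : ∑ s, ∑ J ∈ powersetCard q (univ : Finset (Fin N)),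
            f s (J :: Js) * stepM c J' J s s' ≠ 0 := hh
        obtain ⟨s, _, h1⟩ := exists_ne_zero_of_sum_ne_zero hh'
        obtain ⟨J, _, h2⟩ := exists_ne_zero_of_sum_ne_zero h1
        have h3 := (hf _ _ (left_ne_zero_of_mul h2)).2
        have h4 := right_ne_zero_of_mul h2
        refine ⟨?_, ?_⟩
        · by_contra hlt
          refine h4 ?_
          simp only [stepM, Matrix.sum_apply]
          refine sum_eq_zero fun a _ => ?_
          split_ifs
          · exact hc a s s' (not_lt.1 hlt)
          · rfl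
        · rw [mem_pat] at h3 ⊢
          simp only [List.map_cons, List.cons.injEq] at h3
          exact h3.2
      · have h1 := heq t (J' :: J's) (by
          rw [mem_pat] at hJ's ⊢
          simp [hJ', hJ's])
        refine Eq.trans ?_ h1
        simp only [sum_pat_cons, F, Matrix.mul_apply, Gmap, LinearMap.coe_mk, AddHom.coe_mk,
          sum_mul, mul_sum, mul_assoc]
        calc ∑ s', ∑ Js ∈ pat N ps, ∑ s, ∑ J ∈ powersetCard q (univ : Finset (Fin N)),
              f s (J :: Js) * (stepM c J' J s s' * F cs J's Js s' t)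
            = ∑ Js ∈ pat N ps, ∑ s', ∑ s, ∑ J ∈ powersetCard q (univ : Finset (Fin N)),
              f s (J :: Js) * (stepM c J' J s s' * F cs J's Js s' t) := sum_comm
          _ = ∑ Js ∈ pat N ps, ∑ s, ∑ J ∈ powersetCard q (univ : Finset (Fin N)), ∑ s',
              f s (J :: Js) * (stepM c J' J s s' * F cs J's Js s' t) := by
            refine sum_congr rfl fun Js _ => ?_
            rw [sum_comm]
            exact sum_congr rfl fun s _ => sum_comm
          _ = ∑ s, ∑ Js ∈ pat N ps, ∑ J ∈ powersetCard q (univ : Finset (Fin N)), ∑ s',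
              f s (J :: Js) * (stepM c J' J s s' * F cs J's Js s' t) := sum_comm
          _ = _ := sum_congr rfl fun s _ => sum_comm
    intro s Js
    by_contra hh
    obtain ⟨_, h2⟩ := hf s Js hh
    rcases Js with _ | ⟨J, Js⟩
    · simp [mem_pat] at h2
    have h3 : Js ∈ pat N ps := by
      rw [mem_pat] at h2 ⊢
      simp only [List.map_cons, List.cons.injEq] at h2
      exact h2.2
    refine hh (hloc (fun s J => f s (J :: Js)) (fun s J h => ?_) (fun x hx => ?_)
      (fun t J' hJ' => hG J' hJ' t Js) s J)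
    · obtain ⟨h4, h5⟩ := hf _ _ h
      rw [mem_pat] at h5
      simp only [List.map_cons, List.cons.injEq] at h5
      exact ⟨h4, h5.1⟩
    · exact hψ (Sum.inl (⟨x, hx⟩, ⟨Js, h3⟩))

end Vale.Agent.P346
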