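import Vale.Agent.P346.Defs
import Vale.Agent.P346.Net

namespace Vale.Agent.P346

open Finset MvPolynomial

open scoped IsMulCommutative in
theorem exists_hom {σ K L A : Type*} [CommRing K] [CommRing L] [Ring A] [Algebra L A]
    (g : σ → A) (hg : ∀ x y, Commute (g x) (g y)) (f : K →+* L) :
    ∃ R : MvPolynomial σ K →+* A, (∀ x, R (X x) = g x) ∧ ∀ k, R (C k) = algebraMap L A (f k) := by
  have := Algebra.isMulCommutative_adjoin L (s := Set.range g) (by
    rintro _ ⟨x, rfl⟩ _ ⟨y, rfl⟩
    exact hg x y)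
  refine ⟨(Algebra.adjoin L (Set.range g)).val.toRingHom.comp
    (eval₂Hom ((algebraMap L (Algebra.adjoin L (Set.range g))).comp f)
      (fun x => ⟨g x, Algebra.subset_adjoin ⟨x, rfl⟩⟩)), fun x => by simp, fun k => by simp⟩

section shift

variable {Ω L : Type*} [Fintype Ω] [DecidableEq Ω] [Field L]

def Sh (en : Ω → ℤ) (e : ℤ) (M : Matrix Ω Ω L) : Prop := ∀ J' J, M J' J ≠ 0 → en J' = en J + e

omit [DecidableEq Ω] in
theorem Sh.mul {en : Ω → ℤ} {e e' : ℤ} {M M' : Matrix Ω Ω L} (h : Sh en e M) (h' : Sh en e' M') :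
    Sh en (e + e') (M * M') := by
  intro J' J hh
  rw [Matrix.mul_apply] at hh
  obtain ⟨J'', _, h1⟩ := exists_ne_zero_of_sum_ne_zero hh
  have h2 := h _ _ (left_ne_zero_of_mul h1)
  have h3 := h' _ _ (right_ne_zero_of_mul h1)
  omega

theorem sh_hom {σ K : Type*} [Field K] (en : Ω → ℤ) (ε : σ → ℤ)
    (R : MvPolynomial σ K →+* Matrix Ω Ω L) (hX : ∀ x, Sh en (ε x) (R (X x)))
    (hC : ∀ k, Sh en 0 (R (C k))) (P : MvPolynomial σ K) (e : ℤ)
    (hP : IsWeightedHomogeneous ε P e) : Sh en e (R P) := by
  have hpow : ∀ x (k : ℕ), Sh en (k * ε x) (R (X x ^ k)) := by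
    intro x k
    induction k with
    | zero => simpa using hC 1
    | succ k ih =>
      rw [pow_succ, map_mul]
      have := ih.mul (hX x)
      push_cast
      rwa [add_mul, one_mul]
  have hmon : ∀ (d : σ →₀ ℕ) (r : K), Sh en (Finsupp.weight ε d) (R (monomial d r)) := by
    intro d r
    induction d using Finsupp.induction with
    | zero => simpa using hC r
    | single_add x k d _ _ ih =>
      rw [monomial_single_add, map_mul, map_add, Finsupp.weight_single, nsmul_eq_mul]
      exact (hpow x k).mul ih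
  refine IsWeightedHomogeneous.induction_on (motive := fun P _ => Sh en e (R P)) ?_ ?_ ?_ hP
  · intro J' J h; simp at h
  · intro p q _ _ h1 h2 J' J h
    rw [map_add, Matrix.add_apply] at h
    by_cases h3 : R p J' J = 0
    · rw [h3, zero_add] at h; exact h2 _ _ h
    · exact h1 _ _ h3
  · intro d r hr
    rw [← hr]; exact hmon d r

end shift

section ops

variable {n N w : ℕ} {L : Type*} [Field L]

/-- Adding the element `a` to the `i`-th set. -/
def Eop (L : Type*) [Field L] (i : Fin n) (a : Fin N) :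
    Matrix (Fin n → Finset (Fin N)) (Fin n → Finset (Fin N)) L :=
  Matrix.of fun J' J => if a ∈ J' i ∧ J = Function.update J' i ((J' i).erase a) then 1 else 0

theorem Eop_mul (i : Fin n) (a : Fin N)
    (M : Matrix (Fin n → Finset (Fin N)) (Fin n → Finset (Fin N)) L) (J' J) :
    (Eop L i a * M) J' J
      = if a ∈ J' i then M (Function.update J' i ((J' i).erase a)) J else 0 := by
  simp only [Matrix.mul_apply, Eop, Matrix.of_apply]
  by_cases h : a ∈ J' i <;> simp [h]

theorem Eop_comm (i i' : Fin n) (a a' : Fin N) : Commute (Eop L i a) (Eop L i' a') := by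
  ext J' J
  rw [Eop_mul, Eop_mul]
  simp only [Eop, Matrix.of_apply]
  by_cases h : i = i'
  · subst h
    simp only [Function.update_self, Function.update_idem, mem_erase]
    by_cases h2 : a = a'
    · subst h2; rfl
    · have h3 : ¬ a' = a := fun h => h2 h.symm
      rw [erase_right_comm]
      by_cases h4 : a ∈ J' i <;> by_cases h5 : a' ∈ J' i <;> simp [h2, h3, h4, h5]
  · have h' : ¬ i' = i := fun h2 => h h2.symm
    rw [Function.update_of_ne h, Function.update_of_ne h', Function.update_comm h]
    by_cases h4 : a ∈ J' i <;> by_cases h5 : a' ∈ J' i' <;> simp [h4, h5]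

/-- The operator substituted for the variable `(i, s, t)`. -/
def Aop (Cf : Fin n → Lay N w L) (x : Fin n × Fin w × Fin w) :
    Matrix (Fin n → Finset (Fin N)) (Fin n → Finset (Fin N)) L :=
  ∑ a, Cf x.1 a x.2.1 x.2.2 • Eop L x.1 a

theorem Aop_comm (Cf : Fin n → Lay N w L) (x y : Fin n × Fin w × Fin w) :
    Commute (Aop Cf x) (Aop Cf y) :=
  Commute.sum_left _ _ _ fun _ _ => Commute.sum_right _ _ _ fun _ _ =>
    ((Eop_comm _ _ _ _).smul_left _).smul_right _

/-- The energy of a state. -/
def enr (εL : Fin n → ℤ) (J : Fin n → Finset (Fin N)) : ℤ := ∑ i, εL i * (J i).card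

theorem Aop_sh (εL : Fin n → ℤ) (Cf : Fin n → Lay N w L) (x : Fin n × Fin w × Fin w) :
    Sh (enr εL) (εL x.1) (Aop Cf x) := by
  intro J' J h
  simp only [Aop, Matrix.sum_apply, Matrix.smul_apply, smul_eq_mul] at h
  obtain ⟨a, _, h1⟩ := exists_ne_zero_of_sum_ne_zero h
  have h2 := right_ne_zero_of_mul h1
  simp only [Eop, Matrix.of_apply, ne_eq, ite_eq_right_iff, one_ne_zero, imp_false,
    not_not] at h2
  obtain ⟨h3, rfl⟩ := h2
  unfold enr
  rw [← add_sum_erase _ _ (mem_univ x.1), ← add_sum_erase _ _ (mem_univ x.1)]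
  have h4 : ∑ i ∈ univ.erase x.1, εL i * ((Function.update J' x.1 ((J' x.1).erase a) i).card : ℤ)
      = ∑ i ∈ univ.erase x.1, εL i * ((J' i).card : ℤ) :=
    sum_congr rfl fun i hi => by rw [Function.update_of_ne (ne_of_mem_erase hi)]
  rw [h4, Function.update_self, card_erase_of_mem h3, Nat.cast_sub (card_pos.2 ⟨a, h3⟩)]
  push_cast; ring

theorem entry_formula (Cf : Fin n → Lay N w L) (l : List (Fin n)) (hl : l.Nodup) (t : Fin w)
    (J : Fin n → Finset (Fin N)) : ∀ (s : Fin w) (J' : Fin n → Finset (Fin N)),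
    (l.map fun i => Matrix.of fun s t => Aop Cf (i, s, t)).prod s t J' J
      = if ∀ i, i ∉ l → J' i = J i then F (l.map Cf) (l.map J') (l.map J) s t else 0 := by
  induction l with
  | nil =>
    intro s J'
    simp only [List.map_nil, List.prod_nil, List.not_mem_nil, not_false_eq_true, forall_const, F,
      Matrix.one_apply, ← funext_iff]
    by_cases h1 : s = t <;> by_cases h2 : J' = J <;> simp [h1, h2, Matrix.one_apply]
  | cons i l ih =>
    intro s J'
    obtain ⟨hi, hl'⟩ := List.nodup_cons.1 hl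
    have hmap : ∀ X, l.map (Function.update J' i X) = l.map J' := fun X =>
      List.map_congr_left fun j hj => Function.update_of_ne (fun h : j = i => hi (h ▸ hj)) _ _
    have hcond : ∀ X, (∀ j, j ∉ l → Function.update J' i X j = J j) ↔
        (J i = X ∧ ∀ j, j ∉ i :: l → J' j = J j) := by
      intro X
      constructor
      · intro h
        refine ⟨by rw [← h i hi, Function.update_self], fun j hj => ?_⟩
        rw [List.mem_cons, not_or] at hj
        rw [← h j hj.2, Function.update_of_ne hj.1]
      · rintro ⟨h1, h2⟩ j hj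
        by_cases hji : j = i
        · subst hji; rw [Function.update_self, h1]
        · rw [Function.update_of_ne hji]
          exact h2 j (by simp [hji, hj])
    rw [List.map_cons, List.prod_cons, Matrix.mul_apply, Matrix.sum_apply]
    have h1 : ∀ s', (Matrix.of (fun s t => Aop Cf (i, s, t)) s s' *
        (l.map fun i => Matrix.of fun s t => Aop Cf (i, s, t)).prod s' t) J' J
        = if ∀ j, j ∉ i :: l → J' j = J j then
          stepM (Cf i) (J' i) (J i) s s' * F (l.map Cf) (l.map J') (l.map J) s' t else 0 := by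
      intro s'
      rw [Matrix.of_apply, Aop, sum_mul, Matrix.sum_apply]
      simp only [smul_mul_assoc, Matrix.smul_apply, smul_eq_mul, Eop_mul, ih hl', hmap, hcond]
      by_cases h2 : ∀ j, j ∉ i :: l → J' j = J j
      · rw [if_pos h2, stepM, Matrix.sum_apply, sum_mul, ← sum_ite_mem_eq (J' i)]
        refine sum_congr rfl fun a _ => ?_
        by_cases h3 : a ∈ J' i
        · rw [if_pos h3, if_pos h3]
          by_cases h4 : J i = (J' i).erase a
          · rw [if_pos ⟨h4, h2⟩, if_pos h4]
          · rw [if_neg (fun h => h4 h.1), if_neg h4]; simp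
        · rw [if_neg h3, if_neg h3, mul_zero]
      · rw [if_neg h2]
        refine sum_eq_zero fun a _ => ?_
        rw [if_neg (fun h : _ ∧ _ => h2 h.2)]; simp
    simp only [h1, List.map_cons, F, Matrix.mul_apply]
    split_ifs
    · rfl
    · simp

theorem exists_rep {K : Type*} [Field K] [NeZero w] (f : K →+* L) (εL : Fin n → ℤ)
    (Cf : Fin n → Lay N w L) :
    ∃ R : MvPolynomial (Fin n × Fin w × Fin w) K →+*
        Matrix (Fin n → Finset (Fin N)) (Fin n → Finset (Fin N)) L,
      (∀ P e, IsWeightedHomogeneous (fun x : Fin n × Fin w × Fin w => εL x.1) P e →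
        ∀ J' J, R P J' J ≠ 0 → enr εL J' = enr εL J + e) ∧
      ∀ J' J, R (IMM K w n) J' J = F (List.ofFn Cf) (List.ofFn J') (List.ofFn J) 0 0 := by
  obtain ⟨R, hX, hC⟩ := exists_hom (Aop Cf) (Aop_comm Cf) f
  refine ⟨R, sh_hom (enr εL) _ R (fun x => by rw [hX]; exact Aop_sh εL Cf x) (fun k J' J h => ?_),
    fun J' J => ?_⟩
  · rw [hC, Matrix.algebraMap_matrix_apply] at h
    by_cases h1 : J' = J
    · simp [h1]
    · simp [h1] at h
  · have h1 : R (IMM K w n) = (R.mapMatrix (List.ofFn fun i : Fin n => (Matrix.of fun a b : Fin w =>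
        (X (i, a, b) : MvPolynomial (Fin n × Fin w × Fin w) K))).prod) 0 0 := rfl
    rw [h1, map_list_prod, List.ofFn_eq_map, List.map_map]
    have h2 : (R.mapMatrix ∘ fun i : Fin n => (Matrix.of fun a b : Fin w =>
        (X (i, a, b) : MvPolynomial (Fin n × Fin w × Fin w) K)))
        = fun i => Matrix.of fun s t => Aop Cf (i, s, t) := by
      funext i
      ext1 s t
      simp [hX]
    rw [h2, entry_formula Cf _ (List.nodup_finRange n), if_pos (by simp)]
    simp only [List.ofFn_eq_map]

end ops

end Vale.Agent.P346
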