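import Vale.Agent.P346.Net

namespace Vale.Agent.P346

open Finset Module

/-- A nonvanishing `r × r` minor of the `(0,0)` entry for some choice of layers. -/
def Wit (K : Type*) [CommRing K] (N w : ℕ) [NeZero w] (p : List ℕ) (r : ℕ) : Prop :=
  ∃ cs : List (Lay N w K), cs.length = p.length ∧ ∃ α β : Fin r → List (Finset (Fin N)),
    (∀ i, (α i).map Finset.card = p) ∧ (∀ i, (β i).map Finset.card = p.map (· + 1)) ∧
    (∀ i j t, t ≠ 0 → F cs (β i) (α j) 0 t = 0) ∧
    (Matrix.of fun i j => F cs (β i) (α j) 0 0).det ≠ 0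

variable {K : Type*} [Field K] {N w : ℕ} [NeZero w]

theorem wit_nil : Wit K N w [] 1 := by
  refine ⟨[], rfl, fun _ => [], fun _ => [], by simp, by simp, ?_, by simp [F]⟩
  intro _ _ t ht
  simp [F, ht.symm]

theorem wit_append {p₁ p₂ : List ℕ} {r₁ r₂ : ℕ} (h₁ : Wit K N w p₁ r₁) (h₂ : Wit K N w p₂ r₂) :
    Wit K N w (p₁ ++ p₂) (r₁ * r₂) := by
  obtain ⟨cs₁, hl₁, α₁, β₁, ha₁, hb₁, hz₁, hd₁⟩ := h₁
  obtain ⟨cs₂, hl₂, α₂, β₂, ha₂, hb₂, hz₂, hd₂⟩ := h₂
  let e : Fin (r₁ * r₂) ≃ Fin r₁ × Fin r₂ := finProdFinEquiv.symm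
  have hla : ∀ i, (α₁ i).length = cs₁.length := fun i => by
    rw [hl₁, ← ha₁ i, List.length_map]
  have hlb : ∀ i, (β₁ i).length = cs₁.length := fun i => by
    have := congrArg List.length (hb₁ i)
    simpa [hl₁] using this
  have key : ∀ (i j : Fin r₁ × Fin r₂) t,
      F (cs₁ ++ cs₂) (β₁ i.1 ++ β₂ i.2) (α₁ j.1 ++ α₂ j.2) 0 t
        = F cs₁ (β₁ i.1) (α₁ j.1) 0 0 * F cs₂ (β₂ i.2) (α₂ j.2) 0 t := by
    intro i j t
    rw [F_append _ _ _ _ _ _ (hlb _) (hla _), Matrix.mul_apply, sum_eq_single 0]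
    · intro s _ hs; rw [hz₁ _ _ s hs, zero_mul]
    · simp
  refine ⟨cs₁ ++ cs₂, by simp [hl₁, hl₂], fun i => α₁ (e i).1 ++ α₂ (e i).2,
    fun i => β₁ (e i).1 ++ β₂ (e i).2, fun i => by simp [ha₁, ha₂], fun i => by simp [hb₁, hb₂],
    fun i j t ht => by rw [key, hz₂ _ _ t ht, mul_zero], ?_⟩
  have : (Matrix.of fun i j => F (cs₁ ++ cs₂) (β₁ (e i).1 ++ β₂ (e i).2)
      (α₁ (e j).1 ++ α₂ (e j).2) 0 0)
      = (Matrix.kroneckerMap (· * ·) (Matrix.of fun i j => F cs₁ (β₁ i) (α₁ j) 0 0)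
        (Matrix.of fun i j => F cs₂ (β₂ i) (α₂ j) 0 0)).submatrix e e := by
    ext i j
    simp [key]
  rw [this, Matrix.det_submatrix_equiv_self, Matrix.det_kronecker]
  exact mul_ne_zero (pow_ne_zero _ hd₁) (pow_ne_zero _ hd₂)

theorem wit_of_entry (p : List ℕ) (hp : p ≠ []) (cs : List (Lay N w K))
    (hl : cs.length = p.length) (s t : Fin w) :
    Wit K N w p (Matrix.of fun (J' : pat N (p.map (· + 1))) (J : pat N p) =>
      F cs J'.1 J.1 s t).rank := by
  obtain ⟨β, α, hd⟩ := exists_minor (Matrix.of fun (J' : pat N (p.map (· + 1))) (J : pat N p) =>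
      F cs J'.1 J.1 s t)
  have hcs : cs ≠ [] := by
    rintro rfl
    exact hp (List.length_eq_zero_iff.1 hl.symm)
  obtain ⟨cs', hl', h'⟩ := F_right cs hcs (Matrix.single t 0 1)
  rcases cs' with _ | ⟨c, cs'⟩
  · exact absurd (List.length_eq_zero_iff.1 hl'.symm) hcs
  have key : ∀ J' J t', F ((fun a => Matrix.single 0 s 1 * c a) :: cs') J' J 0 t'
      = if t' = 0 then F cs J' J s t else 0 := by
    intro J' J t'
    rw [F_left, h', Matrix.single_mul_apply_same, one_mul]
    split_ifs with h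
    · rw [h, Matrix.mul_single_apply_same, mul_one]
    · rw [Matrix.mul_single_apply_of_ne _ _ _ _ _ h]
  refine ⟨(fun a => Matrix.single 0 s 1 * c a) :: cs', by rw [← hl, ← hl']; rfl,
    fun i => (α i).1, fun i => (β i).1, fun i => (mem_pat _ _).1 (α i).2,
    fun i => (mem_pat _ _).1 (β i).2, fun i j t' ht => by rw [key, if_neg ht], ?_⟩
  simp only [key, if_true]
  exact hd

theorem wit_seg (t0 : ℕ) (ht0 : 0 < t0) (p : List ℕ) (hp : p ≠ []) (hN : ∀ q ∈ p, q ≤ N)
    (v : ℕ) (hv0 : 0 < v) (hv : v ≤ w) :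
    ∃ r, Wit K N w p r ∧ (v : ℝ) * aP N p - kb N w t0 p v ≤ v * w * r := by
  classical
  obtain ⟨cs, hl, D, hD, ψ, hcard, hdef⟩ := defect (K := K) N w t0 ht0 p v hN hv
  let B : Fin v × Fin w → Matrix (pat N (p.map (· + 1))) (pat N p) K := fun x =>
    Matrix.of fun J' J => F cs J'.1 J.1 (Fin.castLE hv x.1) x.2
  obtain ⟨x0, _, hx0⟩ := exists_max_image (univ : Finset (Fin v × Fin w)) (fun x => (B x).rank)
    ⟨(⟨0, hv0⟩, 0), mem_univ _⟩
  refine ⟨(B x0).rank, wit_of_entry p hp cs hl _ _, ?_⟩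
  let ext : (Fin v × pat N p → K) →ₗ[K] (Fin w → List (Finset (Fin N)) → K) :=
    { toFun := fun u s Js => if h : s.val < v ∧ Js ∈ pat N p then u (⟨s.val, h.1⟩, ⟨Js, h.2⟩) else 0
      map_add' := fun u u' => by
        funext s Js
        simp only [Pi.add_apply]
        split_ifs <;> simp
      map_smul' := fun a u => by
        funext s Js
        simp only [Pi.smul_apply, RingHom.id_apply]
        split_ifs <;> simp }
  let φ : Fin v × Fin w → (Fin v × pat N p → K) →ₗ[K] (pat N (p.map (· + 1)) → K) := fun x =>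
    (B x).mulVecLin.comp (LinearMap.funLeft K K (fun J => (x.1, J)))
  let Ψ : (Fin v × pat N p → K) →ₗ[K] (D → K) := LinearMap.pi fun δ => (ψ δ).comp ext
  have hext : ∀ u (s : Fin v) (J : pat N p), ext u (Fin.castLE hv s) J.1 = u (s, J) := by
    intro u s J
    simp [ext, s.isLt]
  have key := finrank_le_of_joint φ Ψ (fun u h1 h2 => by
    have h3 := hdef (ext u) (fun s Js hh => by
        by_contra hc
        exact hh (dif_neg hc))
      (fun t J's hJ's => by
        refine sum_eq_zero fun s _ => ?_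
        by_cases hs : s.val < v
        · have h4 := congrFun (h1 (⟨s.val, hs⟩, t)) ⟨J's, hJ's⟩
          simp only [φ, B, LinearMap.comp_apply, Matrix.mulVecLin_apply, Matrix.mulVec,
            dotProduct, Matrix.of_apply, LinearMap.funLeft_apply, Pi.zero_apply] at h4
          rw [← sum_coe_sort]
          refine Eq.trans (sum_congr rfl fun J _ => ?_) h4
          have := hext u ⟨s.val, hs⟩ J
          rw [← this, mul_comm]
          rfl
        · refine sum_eq_zero fun Js _ => ?_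
          have : ext u s Js = 0 := dif_neg (fun h => hs h.1)
          rw [this, zero_mul])
      (fun δ => congrFun h2 δ)
    funext x
    rw [← hext u x.1 x.2, h3]; rfl)
  have h5 : ∑ x, finrank K (LinearMap.range (φ x)) ≤ v * w * (B x0).rank := by
    have := sum_le_card_nsmul (univ : Finset (Fin v × Fin w))
      (fun x => finrank K (LinearMap.range (φ x))) (B x0).rank (fun x hx =>
        le_trans (Submodule.finrank_mono (LinearMap.range_comp_le_range _ _)) (hx0 x hx))
    simpa using this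
  simp only [finrank_fintype_fun_eq_card, Fintype.card_prod, Fintype.card_fin, Fintype.card_coe,
    card_pat] at key
  have h6 : ((v * aP N p : ℕ) : ℝ) ≤ ((v * w * (B x0).rank + Fintype.card D : ℕ) : ℝ) := by
    exact_mod_cast le_trans key (Nat.add_le_add_right h5 _)
  push_cast at h6
  linarith

end Vale.Agent.P346
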